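import Vale.Agent.P254.Orlicz.Simplex

/-!
From the positive part to the whole (sign-symmetric) ball.
-/

open MeasureTheory Set
open scoped ENNReal

namespace Vale.Agent.P254.Orlicz

variable {n : ℕ}

/-- The sign-symmetric body. -/
def ball (ψ : Fin n → ℝ → ℝ) : Set (Fin n → ℝ) := {x | ∑ i, ψ i |x i| ≤ 1}

lemma mem_ball_iff (ψ : Fin n → ℝ → ℝ) (y : Fin n → ℝ) :
    y ∈ ball ψ ↔ (fun j => |y j|) ∈ body ψ 1 := by
  simp [ball, body]

lemma map_abs : (volume : Measure ℝ).map (fun x => |x|) =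
    (2 : ℝ≥0∞) • volume.restrict (Ici (0:ℝ)) := by
  ext s hs
  rw [Measure.map_apply (continuous_abs.measurable) hs, Measure.smul_apply, Measure.restrict_apply hs,
    smul_eq_mul, two_mul]
  have h1 : (fun x : ℝ => |x|) ⁻¹' s = (s ∩ Ici 0) ∪ Neg.neg ⁻¹' (s ∩ Ioi 0) := by
    ext x
    rcases le_or_gt 0 x with hx | hx
    · simp [abs_of_nonneg hx, hx, not_lt.2 hx]
    · simp [abs_of_neg hx, hx, not_le.2 hx]
  have hdis : Disjoint (s ∩ Ici 0) (Neg.neg ⁻¹' (s ∩ Ioi (0:ℝ))) := by
    refine Set.disjoint_left.2 fun x hx hx' => ?_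
    have h1 : 0 ≤ x := hx.2
    have h2 : 0 < -x := hx'.2
    linarith
  show volume ((fun x : ℝ => |x|) ⁻¹' s) = _
  rw [h1, measure_union hdis ((hs.inter measurableSet_Ioi).preimage measurable_neg),
    Measure.measure_preimage_neg]
  congr 1
  exact measure_congr (Filter.EventuallyEq.inter (Filter.EventuallyEq.refl _ _) Ioi_ae_eq_Ici)

lemma map_abs_pi : (volume : Measure (Fin n → ℝ)).map (fun y j => |y j|) =
    (2 : ℝ≥0∞) ^ n • volume.restrict (univ.pi fun _ : Fin n => Ici (0:ℝ)) := by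
  have : SigmaFinite ((volume : Measure ℝ).map fun x => |x|) := by
    rw [map_abs]
    have : (2 : ℝ≥0∞) • volume.restrict (Ici (0:ℝ)) = (2 : NNReal) • volume.restrict (Ici (0:ℝ)) := by
      rfl
    rw [this]
    infer_instance
  rw [volume_pi, Measure.pi_map_pi (μ := fun _ : Fin n => (volume : Measure ℝ))
    (f := fun _ : Fin n => fun x : ℝ => |x|) (fun _ => continuous_abs.measurable.aemeasurable)]
  refine Measure.pi_eq fun s hs => ?_
  rw [Measure.smul_apply, Measure.restrict_apply (MeasurableSet.univ_pi hs), ← Set.pi_inter_distrib,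
    Measure.pi_pi, smul_eq_mul]
  simp [map_abs, Measure.restrict_apply (hs _), Finset.prod_mul_distrib]

lemma isCompact_ball {ψ : Fin n → ℝ → ℝ} (hψ : ∀ i, Young (ψ i)) : IsCompact (ball ψ) := by
  obtain ⟨a, ha⟩ := exists_box hψ 1
  refine (isCompact_Icc (a := -a) (b := a)).of_isClosed_subset ?_ fun y hy => ?_
  · exact isClosed_le (continuous_finsetSum _ fun i _ =>
      (hψ i).cont.comp ((continuous_apply i).abs)) continuous_const
  · have h := ha ((mem_ball_iff ψ y).1 hy)
    exact ⟨fun i => (abs_le.1 (h.2 i)).1, fun i => (abs_le.1 (h.2 i)).2⟩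

lemma convex_ball {ψ : Fin n → ℝ → ℝ} (hψ : ∀ i, Young (ψ i)) : Convex ℝ (ball ψ) := by
  intro x hx y hy a b ha hb hab
  have hx' : ∑ i, ψ i |x i| ≤ 1 := hx
  have hy' : ∑ i, ψ i |y i| ≤ 1 := hy
  show ∑ i, ψ i |(a • x + b • y) i| ≤ 1
  have h1 : ∀ i, ψ i |(a • x + b • y) i| ≤ a * ψ i |x i| + b * ψ i |y i| := by
    intro i
    have h2 : |(a • x + b • y) i| ≤ a * |x i| + b * |y i| := by
      simp only [Pi.add_apply, Pi.smul_apply, smul_eq_mul]
      refine (abs_add_le _ _).trans (le_of_eq ?_)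
      rw [abs_mul, abs_mul, abs_of_nonneg ha, abs_of_nonneg hb]
    refine ((hψ i).mono h2).trans ?_
    simpa using (hψ i).convex.2 (mem_univ |x i|) (mem_univ |y i|) ha hb hab
  calc ∑ i, ψ i |(a • x + b • y) i| ≤ ∑ i, (a * ψ i |x i| + b * ψ i |y i|) :=
        Finset.sum_le_sum fun i _ => h1 i
    _ = a * ∑ i, ψ i |x i| + b * ∑ i, ψ i |y i| := by
        rw [Finset.sum_add_distrib, Finset.mul_sum, Finset.mul_sum]
    _ ≤ a * 1 + b * 1 := by gcongr
    _ = 1 := by linarith

lemma interior_ball {ψ : Fin n → ℝ → ℝ} (hψ : ∀ i, Young (ψ i)) :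
    (interior (ball ψ)).Nonempty := by
  refine ⟨0, interior_maximal (t := {x : Fin n → ℝ | ∑ i, ψ i |x i| < 1})
    (fun x (hx : ∑ i, ψ i |x i| < 1) => le_of_lt hx) ?_ ?_⟩
  · exact isOpen_lt (continuous_finsetSum _ fun i _ =>
      (hψ i).cont.comp ((continuous_apply i).abs)) continuous_const
  · simp [(hψ _).zero]

lemma integral_abs {ψ : Fin n → ℝ → ℝ} (hψ : ∀ i, Young (ψ i)) {F : (Fin n → ℝ) → ℝ}
    (hF : Continuous F) :
    ∫ y in ball ψ, F (fun j => |y j|) = 2 ^ n * ∫ z in body ψ 1, F z := by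
  have hm : Measurable fun (y : Fin n → ℝ) j => |y j| :=
    measurable_pi_lambda _ fun j => continuous_abs.measurable.comp (measurable_pi_apply j)
  have hb : MeasurableSet (body ψ 1) := (isCompact_body hψ 1).measurableSet
  have hpre : (fun (y : Fin n → ℝ) j => |y j|) ⁻¹' body ψ 1 = ball ψ := by
    ext y; exact (mem_ball_iff ψ y).symm
  have h := setIntegral_map (μ := (volume : Measure (Fin n → ℝ))) hb
    hF.aestronglyMeasurable hm.aemeasurable (f := F)
  rw [hpre, map_abs_pi, Measure.restrict_smul, integral_smul_measure,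
    Measure.restrict_restrict hb] at h
  rw [← h]
  have hsub : body ψ 1 ⊆ univ.pi fun _ : Fin n => Ici (0:ℝ) := fun y hy i _ => hy.1 i
  rw [inter_eq_left.2 hsub]
  simp

lemma integral_flip {ψ : Fin n → ℝ → ℝ} (i : Fin n) (F : (Fin n → ℝ) → ℝ) :
    ∫ y in ball ψ, F y = ∫ y in ball ψ, F (fun j => if j = i then -y j else y j) := by
  let e : (Fin n → ℝ) ≃ᵐ (Fin n → ℝ) := MeasurableEquiv.piCongrRight fun j =>
    if j = i then MeasurableEquiv.neg ℝ else MeasurableEquiv.refl ℝ
  have he : ∀ y j, e y j = if j = i then -y j else y j := by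
    intro y j
    show (if j = i then MeasurableEquiv.neg ℝ else MeasurableEquiv.refl ℝ) (y j) = _
    split_ifs <;> rfl
  have hmp : MeasurePreserving e volume volume := by
    refine volume_preserving_pi (fun j => ?_)
    by_cases hj : j = i
    · simp only [hj, if_true]
      exact Measure.measurePreserving_neg volume
    · simp only [if_neg hj]
      exact MeasurePreserving.id volume
  have hpre : e ⁻¹' ball ψ = ball ψ := by
    ext y
    simp only [mem_preimage, mem_ball_iff]
    have : (fun j => |e y j|) = fun j => |y j| := funext fun j => by rw [he]; split_ifs <;> simp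
    rw [this]
  have h := hmp.setIntegral_preimage_emb e.measurableEmbedding F (ball ψ)
  rw [hpre] at h
  rw [← h]
  exact integral_congr_ae (Filter.Eventually.of_forall fun y => congrArg F (funext (he y)))

lemma odd_zero {ψ : Fin n → ℝ → ℝ} (i : Fin n) : ∫ y in ball ψ, y i = 0 := by
  have h := integral_flip (ψ := ψ) i (fun y => y i)
  simp only [if_pos, integral_neg] at h
  linarith

lemma cross_zero {ψ : Fin n → ℝ → ℝ} {i j : Fin n} (hij : i ≠ j) :
    ∫ y in ball ψ, y i * y j = 0 := by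
  have h := integral_flip (ψ := ψ) i (fun y => y i * y j)
  simp only [if_pos, if_neg hij.symm, neg_mul, integral_neg] at h
  linarith

theorem cov_ball {ψ : Fin n → ℝ → ℝ} (hψ : ∀ i, Young (ψ i)) :
    volume.real (ball ψ) = 2 ^ n * S ψ 1 ∧
      cov (ball ψ) = Matrix.diagonal fun i => (∫ y in body ψ 1, y i ^ 2) / S ψ 1 := by
  have hvol : volume.real (ball ψ) = 2 ^ n * S ψ 1 := by
    have h := integral_abs hψ (F := fun _ => (1:ℝ)) continuous_const
    simpa [S] using h
  have hb : ∀ i, bary (ball ψ) i = 0 := fun i => by simp [bary, odd_zero]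
  refine ⟨hvol, ?_⟩
  ext i j
  simp only [cov, Matrix.of_apply, hb, sub_zero]
  rcases eq_or_ne i j with h | h
  · subst h
    have h2 := integral_abs hψ (F := fun z => z i ^ 2) ((continuous_apply i).pow 2)
    simp only [sq_abs] at h2
    rw [Matrix.diagonal_apply_eq, show (fun y : Fin n → ℝ => y i * y i) = fun y => y i ^ 2 from
      funext fun y => (sq (y i)).symm, h2, hvol]
    have := S_pos hψ (r := 1) one_pos
    field_simp
  · rw [Matrix.diagonal_apply_ne _ h, cross_zero h, mul_zero]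

end Vale.Agent.P254.Orlicz
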