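import Vale.Agent.P254.Orlicz.Moments

/-!
The isotropic constant of the corner simplex.
-/

open MeasureTheory Set
open scoped Nat

namespace Vale.Agent.P254.Orlicz

/-- The family whose body at level `1` is the corner simplex. -/
def lin (n : ℕ) : Fin n → ℝ → ℝ := fun _ x => max x 0

lemma lin_young (n : ℕ) (i : Fin n) : Young (lin n i) := by
  refine ⟨?_, fun a b h => max_le_max h le_rfl, max_self 0, continuous_id.max continuous_const,
    fun r => ⟨max r 0 + 1, by have := le_max_right r 0; linarith, ?_⟩⟩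
  · exact (convexOn_id convex_univ).sup (convexOn_const 0 convex_univ)
  · have h1 := le_max_left r 0
    have h2 : max r 0 + 1 ≤ max (max r 0 + 1) 0 := le_max_left _ _
    show r < max (max r 0 + 1) 0
    linarith

lemma body_lin (n : ℕ) : body (lin n) 1 = cornerSimplex n := by
  ext y
  simp only [body, cornerSimplex, mem_ofPred_eq, lin]
  refine and_congr_right fun h => ?_
  simp [max_eq_left (h _)]

/-- `x^k / k!` on `[0, ∞)`, zero on negative numbers. -/
noncomputable def P (k : ℕ) (r : ℝ) : ℝ := if r < 0 then 0 else r ^ k / k !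

lemma P_of_nonneg (k : ℕ) {r : ℝ} (h : 0 ≤ r) : P k r = r ^ k / k ! := if_neg (not_lt.2 h)

lemma P_zero_int {r : ℝ} (hr : 0 ≤ r) : ∫ x in Ioi (0:ℝ), P 0 (r - x) = P 1 r := by
  have : ∀ x, P 0 (r - x) = (Iic r).indicator (fun _ => (1:ℝ)) x := fun x => by
    by_cases h : x ≤ r
    · simp [P, h, not_lt.2 (sub_nonneg.2 h)]
    · simp [P, h, not_le.1 h]
  simp only [this]
  rw [setIntegral_indicator measurableSet_Iic, Ioi_inter_Iic, setIntegral_const, P_of_nonneg 1 hr]
  simp [Real.volume_real_Ioc_of_le hr]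

lemma P_int {r : ℝ} (hr : 0 ≤ r) {k : ℕ} (hk : k ≠ 0) :
    (∫ x in Ioi (0:ℝ), P k (r - x) = P (k + 1) r) ∧
      (∫ x in Ioi (0:ℝ), x * P k (r - x) = P (k + 2) r) ∧
      ∫ x in Ioi (0:ℝ), x ^ 2 * P k (r - x) = 2 * P (k + 3) r := by
  rcases hr.eq_or_lt with h0 | hp
  · have hz : ∀ x ∈ Ioi (0:ℝ), P k (r - x) = 0 := fun x hx =>
      if_pos (by linarith [mem_Ioi.1 hx])
    refine ⟨?_, ?_, ?_⟩ <;>
      · rw [setIntegral_eq_zero_of_forall_eq_zero fun x hx => by simp [hz x hx]]
        simp [P, ← h0]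
  have hPeq : ∀ x, P k (r - x) = r ^ k / k ! * (max (1 - x / r) 0) ^ k := fun x => by
    by_cases h : x ≤ r
    · rw [P_of_nonneg k (sub_nonneg.2 h), max_eq_left (by rw [sub_nonneg, div_le_one hp]; exact h),
        div_mul_eq_mul_div, ← mul_pow]
      congr 2
      field_simp
    · rw [P, if_pos (by linarith [not_le.1 h]),
        max_eq_right (by rw [sub_nonpos, le_div_iff₀ hp]; linarith [not_le.1 h]), zero_pow hk,
        mul_zero]
  have f1 : ((k + 1)! : ℝ) = ((k:ℝ) + 1) * k ! := by push_cast [Nat.factorial_succ]; ring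
  have f2 : ((k + 2)! : ℝ) = ((k:ℝ) + 2) * ((k:ℝ) + 1) * k ! := by
    push_cast [Nat.factorial_succ]; ring
  have f3 : ((k + 3)! : ℝ) = ((k:ℝ) + 3) * ((k:ℝ) + 2) * ((k:ℝ) + 1) * k ! := by
    push_cast [Nat.factorial_succ]; ring
  refine ⟨?_, ?_, ?_⟩
  · simp only [hPeq]
    rw [integral_const_mul, ramp_zero hp hk, P_of_nonneg _ hr, f1]
    field_simp
    ring
  · simp only [hPeq, mul_left_comm _ (r ^ k / (k ! : ℝ))]
    rw [integral_const_mul, ramp_one hp hk, P_of_nonneg _ hr, f2]
    field_simp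
    ring
  · simp only [hPeq, mul_left_comm _ (r ^ k / (k ! : ℝ))]
    rw [integral_const_mul, ramp_two hp hk, P_of_nonneg _ hr, f3]
    field_simp
    ring

lemma S_lin : ∀ (n : ℕ) (r : ℝ), S (lin n) r = P n r
  | 0, r => by
    rcases lt_or_ge r 0 with h | h
    · rw [S_neg (lin_young 0) h, P, if_pos h]
    · rw [S_zero_dim _ h, P_of_nonneg 0 h]; simp
  | n + 1, r => by
    rcases lt_or_ge r 0 with h | h
    · rw [S_neg (lin_young _) h, P, if_pos h]
    · rw [S_succ (lin_young _) 0 r]
      have he : ∫ x in Ioi (0:ℝ), S (fun j => lin (n + 1) ((0 : Fin (n+1)).succAbove j))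
          (r - lin (n + 1) 0 x) = ∫ x in Ioi (0:ℝ), P n (r - x) := by
        refine setIntegral_congr_fun measurableSet_Ioi fun x hx => ?_
        show S (lin n) (r - max x 0) = _
        rw [S_lin n, max_eq_left (le_of_lt hx)]
      rw [he]
      rcases Nat.eq_zero_or_pos n with rfl | hn
      · exact P_zero_int h
      · exact (P_int h hn.ne').1

lemma N_lin {m : ℕ} (i : Fin (m + 2)) {r : ℝ} (hr : 0 ≤ r) :
    N (lin (m + 2)) i r = P (m + 3) r := by
  rw [N, moment_slice (lin_young _) i r (h := fun x => x) continuous_id,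
    ← (P_int hr (Nat.succ_ne_zero m)).2.1]
  refine setIntegral_congr_fun measurableSet_Ioi fun x hx => ?_
  show x * S (lin (m + 1)) (r - max x 0) = _
  rw [S_lin, max_eq_left (le_of_lt hx)]

lemma N_lin_tail {m : ℕ} (i : Fin (m + 1)) {r : ℝ} (hr : 0 ≤ r) :
    N (lin (m + 1)) i r = P (m + 2) r := by
  cases m with
  | succ m => exact N_lin i hr
  | zero =>
    rw [N, moment_slice (lin_young _) i r (h := fun x => x) continuous_id]
    rcases hr.eq_or_lt with h0 | hp
    · rw [setIntegral_eq_zero_of_forall_eq_zero fun x hx => ?_]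
      · simp [P, ← h0]
      · show x * S (lin 0) (r - max x 0) = 0
        rw [S_neg (lin_young 0) (by linarith [mem_Ioi.1 hx, le_max_left x 0]), mul_zero]
    · have h1 : ∫ x in Ioi (0:ℝ), x * S (fun j => lin 1 (i.succAbove j)) (r - lin 1 i x) =
          ∫ x in Ioc (0:ℝ) r, x := by
        rw [setIntegral_eq_of_subset_of_forall_sdiff_eq_zero measurableSet_Ioi
          (s := Ioc (0:ℝ) r) Ioc_subset_Ioi_self]
        · refine setIntegral_congr_fun measurableSet_Ioc fun x hx => ?_
          show x * S (lin 0) (r - max x 0) = x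
          rw [S_lin, P_of_nonneg _ (by rw [max_eq_left hx.1.le]; linarith [hx.2])]
          simp
        · intro x hx
          have : r < x := by
            by_contra hc
            exact hx.2 ⟨hx.1, not_lt.1 hc⟩
          show x * S (lin 0) (r - max x 0) = 0
          rw [S_neg (lin_young 0) (by linarith [le_max_left x 0]), mul_zero]
      rw [h1, ← intervalIntegral.integral_of_le hr, integral_id, P_of_nonneg _ hr]
      norm_num

lemma sq_lin {m : ℕ} (i : Fin (m + 2)) :
    ∫ y in body (lin (m + 2)) 1, y i ^ 2 = 2 / (m + 4)! := by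
  rw [moment_slice (lin_young _) i 1 (h := fun x => x ^ 2) (continuous_pow 2)]
  have : ∫ x in Ioi (0:ℝ), x ^ 2 * S (fun j => lin (m + 2) (i.succAbove j)) (1 - lin (m + 2) i x) =
      ∫ x in Ioi (0:ℝ), x ^ 2 * P (m + 1) (1 - x) := by
    refine setIntegral_congr_fun measurableSet_Ioi fun x hx => ?_
    show x ^ 2 * S (lin (m + 1)) (1 - max x 0) = _
    rw [S_lin, max_eq_left (le_of_lt hx)]
  rw [this, (P_int zero_le_one (Nat.succ_ne_zero m)).2.2, P_of_nonneg _ zero_le_one, one_pow]
  ring

lemma cross_lin {m : ℕ} (i j : Fin (m + 2)) (hij : i ≠ j) :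
    ∫ y in body (lin (m + 2)) 1, y i * y j = 1 / (m + 4)! := by
  obtain ⟨j', rfl⟩ := Fin.exists_succAbove_eq hij.symm
  rw [integral_slice (lin_young _) i 1 (F := fun y => y i * y (i.succAbove j'))
    ((continuous_apply i).mul (continuous_apply (i.succAbove j')))]
  have hi := (P_int zero_le_one (k := m + 2) (by omega)).2.1
  rw [P_of_nonneg _ zero_le_one, one_pow] at hi
  rw [← hi]
  refine setIntegral_congr_fun measurableSet_Ioi fun x hx => ?_
  simp only [Fin.insertNth_apply_same, Fin.insertNth_apply_succAbove]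
  rw [integral_const_mul]
  congr 1
  show N (lin (m + 1)) j' (1 - max x 0) = _
  rw [max_eq_left (le_of_lt hx)]
  rcases lt_or_ge (1 - x) 0 with h | h
  · rw [N_neg (lin_young _) _ h, P, if_pos h]
  · exact N_lin_tail j' h

lemma bary_simplex {m : ℕ} (i : Fin (m + 2)) : bary (cornerSimplex (m + 2)) i = 1 / (m + 3) := by
  rw [bary, ← body_lin]
  show (S (lin (m + 2)) 1)⁻¹ * N (lin (m + 2)) i 1 = _
  rw [S_lin, N_lin i zero_le_one, P_of_nonneg _ zero_le_one, P_of_nonneg _ zero_le_one, one_pow,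
    one_pow]
  have : ((m + 3)! : ℝ) = ((m:ℝ) + 3) * (m + 2)! := by push_cast [Nat.factorial_succ]; ring
  rw [this]
  field_simp

lemma cov_simplex {m : ℕ} (i j : Fin (m + 2)) :
    cov (cornerSimplex (m + 2)) i j =
      (if i = j then 1 / (((m:ℝ) + 3) * (m + 4)) else 0) - 1 / (((m:ℝ) + 3) ^ 2 * (m + 4)) := by
  have hvol : volume.real (cornerSimplex (m + 2)) = 1 / (m + 2)! := by
    rw [← body_lin]
    show S (lin (m + 2)) 1 = _
    rw [S_lin, P_of_nonneg _ zero_le_one, one_pow]
  have hN : ∀ l : Fin (m + 2), ∫ y in cornerSimplex (m + 2), y l = 1 / (m + 3)! := fun l => by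
    rw [← body_lin]
    show N (lin (m + 2)) l 1 = _
    rw [N_lin l zero_le_one, P_of_nonneg _ zero_le_one, one_pow]
  simp only [cov, Matrix.of_apply, bary_simplex, hvol]
  set b : ℝ := 1 / ((m:ℝ) + 3) with hb
  have he : ∀ y : Fin (m + 2) → ℝ, (y i - b) * (y j - b) = y i * y j - b * y i - b * y j + b ^ 2 :=
    fun y => by ring
  simp only [he]
  rw [← body_lin] at hN hvol ⊢
  have hc := isCompact_body (lin_young (m + 2)) 1
  have a0 : IntegrableOn (fun y : Fin (m + 2) → ℝ => y i * y j) (body (lin (m + 2)) 1) :=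
    integrableOn_body (lin_young _) 1 ((continuous_apply i).mul (continuous_apply j))
  have a1 : ∀ l : Fin (m + 2), IntegrableOn (fun y => b * y l) (body (lin (m + 2)) 1) := fun l =>
    integrableOn_body (lin_young _) 1 (continuous_const.mul (continuous_apply l))
  have a2 : IntegrableOn (fun _ => b ^ 2) (body (lin (m + 2)) 1) :=
    integrableOn_body (lin_young _) 1 continuous_const
  have b1 : Integrable (fun y : Fin (m + 2) → ℝ => y i * y j - b * y i)
      (volume.restrict (body (lin (m + 2)) 1)) := a0.sub (a1 i)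
  have b2 : Integrable (fun y : Fin (m + 2) → ℝ => y i * y j - b * y i - b * y j)
      (volume.restrict (body (lin (m + 2)) 1)) := b1.sub (a1 j)
  rw [integral_add b2 a2, integral_sub b1 (a1 j), integral_sub a0 (a1 i), integral_const_mul,
    integral_const_mul, hN, hN, setIntegral_const, hvol, smul_eq_mul]
  have f3 : ((m + 3)! : ℝ) = ((m:ℝ) + 3) * (m + 2)! := by push_cast [Nat.factorial_succ]; ring
  have f4 : ((m + 4)! : ℝ) = ((m:ℝ) + 4) * ((m:ℝ) + 3) * (m + 2)! := by
    push_cast [Nat.factorial_succ]; ring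
  by_cases h : i = j
  · subst h
    rw [show (fun y : Fin (m + 2) → ℝ => y i * y i) = fun y => y i ^ 2 from
      funext fun y => (sq (y i)).symm, sq_lin i, if_pos rfl, f3, f4, hb]
    field_simp
    ring
  · rw [cross_lin i j h, if_neg h, f3, f4, hb]
    field_simp
    ring

lemma det_simplex (m : ℕ) :
    (cov (cornerSimplex (m + 2))).det =
      (1 / (((m:ℝ) + 3) * (m + 4))) ^ (m + 2) * (1 / ((m:ℝ) + 3)) := by
  set a : ℝ := 1 / (((m:ℝ) + 3) * (m + 4)) with ha
  have hA : cov (cornerSimplex (m + 2)) = a • (1 + Matrix.replicateCol Unit (fun _ : Fin (m + 2) =>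
      -(1 / ((m:ℝ) + 3))) * Matrix.replicateRow Unit (fun _ : Fin (m + 2) => (1:ℝ))) := by
    ext i j
    rw [cov_simplex]
    simp only [Matrix.smul_apply, Matrix.add_apply, Matrix.one_apply, Matrix.mul_apply,
      Matrix.replicateCol_apply, Matrix.replicateRow_apply, smul_eq_mul, Finset.univ_unique,
      Finset.sum_singleton, mul_one, ha]
    split_ifs <;> field_simp <;> ring
  rw [hA, Matrix.det_smul, Matrix.det_one_add_replicateCol_mul_replicateRow, Fintype.card_fin]
  congr 1
  simp [dotProduct]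
  field_simp
  ring

lemma isoConst_simplex (m : ℕ) :
    isoConst (cornerSimplex (m + 2)) =
      (((m + 2)! : ℝ) ^ 2 / (((m:ℝ) + 3) ^ (m + 3) * ((m:ℝ) + 4) ^ (m + 2))) ^
        (1 / (2 * ((m + 2 : ℕ) : ℝ))) := by
  rw [isoConst, det_simplex]
  congr 1
  have hvol : volume.real (cornerSimplex (m + 2)) = 1 / (m + 2)! := by
    rw [← body_lin]
    show S (lin (m + 2)) 1 = _
    rw [S_lin, P_of_nonneg _ zero_le_one, one_pow]
  rw [hvol, div_pow, mul_pow, div_pow, one_pow, one_pow, pow_succ _ (m + 2)]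
  field_simp

end Vale.Agent.P254.Orlicz
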