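import Vale.Agent.P254.Orlicz.Symm

/-!
Generalised Orlicz balls have smaller isotropic constant than simplices.
-/

open MeasureTheory Set
open scoped Nat

namespace Vale.Agent.P254.Orlicz

lemma young_of {f : ℝ → ℝ} (hc : ConvexOn ℝ (Ici 0) f) (h0 : f 0 = 0)
    (hnn : ∀ x, 0 ≤ x → 0 ≤ f x) (hpos : ∃ x, 0 < x ∧ 0 < f x) :
    Young (fun x => f (max x 0)) := by
  have hseg : ∀ x y, 0 ≤ x → x ≤ y → y * f x ≤ x * f y := by
    intro x y hx hxy
    rcases hxy.eq_or_lt with rfl | hlt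
    · exact le_rfl
    · have hy : 0 < y := lt_of_le_of_lt hx hlt
      have h := hc.2 (show (0:ℝ) ∈ Ici (0:ℝ) from le_refl (0:ℝ)) (show y ∈ Ici (0:ℝ) from hy.le)
        (show 0 ≤ (y - x) / y from div_nonneg (by linarith) hy.le)
        (show 0 ≤ x / y from div_nonneg hx hy.le) (by field_simp; ring)
      simp only [smul_eq_mul, h0, mul_zero, zero_add] at h
      rw [div_mul_cancel₀ _ hy.ne', div_mul_eq_mul_div, le_div_iff₀ hy] at h
      linarith
  have hmono : ∀ x y, 0 ≤ x → x ≤ y → f x ≤ f y := by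
    intro x y hx hxy
    rcases (hx.trans hxy).eq_or_lt with hy | hy
    · have : x = 0 := le_antisymm (hxy.trans hy.symm.le) hx
      rw [this, ← hy]
    · refine le_of_mul_le_mul_left ((hseg x y hx hxy).trans ?_) hy
      exact mul_le_mul_of_nonneg_right hxy (hnn y hy.le)
  have hM : Monotone fun x => f (max x 0) := fun a b h =>
    hmono _ _ (le_max_right _ _) (max_le_max h le_rfl)
  have hC : ConvexOn ℝ univ fun x => f (max x 0) := by
    refine ⟨convex_univ, fun x _ y _ a b ha hb hab => ?_⟩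
    simp only [smul_eq_mul]
    have h1 : max (a * x + b * y) 0 ≤ a * max x 0 + b * max y 0 := by
      refine max_le (add_le_add (mul_le_mul_of_nonneg_left (le_max_left _ _) ha)
        (mul_le_mul_of_nonneg_left (le_max_left _ _) hb)) ?_
      exact add_nonneg (mul_nonneg ha (le_max_right _ _)) (mul_nonneg hb (le_max_right _ _))
    refine (hmono _ _ (le_max_right _ _) h1).trans ?_
    simpa using hc.2 (show max x 0 ∈ Ici (0:ℝ) from le_max_right x 0)
      (show max y 0 ∈ Ici (0:ℝ) from le_max_right y 0) ha hb hab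
  refine ⟨hC, hM, by simp [h0], ?_, fun r => ?_⟩
  · exact continuousOn_univ.1 (hC.continuousOn isOpen_univ)
  · obtain ⟨x1, hx1, hp⟩ := hpos
    set y := x1 * (max (r / f x1) 0 + 1) with hy
    have hge : x1 ≤ y := le_mul_of_one_le_right hx1.le (by have := le_max_right (r / f x1) 0; linarith)
    have hy0 : 0 < y := lt_of_lt_of_le hx1 hge
    refine ⟨y, hy0, ?_⟩
    rw [max_eq_left hy0.le]
    have h := hseg x1 y hx1.le hge
    have h2 : r < (max (r / f x1) 0 + 1) * f x1 := by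
      rw [← div_lt_iff₀ hp]
      have := le_max_left (r / f x1) 0
      linarith
    refine lt_of_lt_of_le h2 (le_of_mul_le_mul_left ?_ hx1)
    refine le_trans (le_of_eq ?_) h
    rw [hy]; ring

lemma pow_bound (N : ℕ) (hN : 3 ≤ N) : ((1:ℝ) + 1 / N) ^ (2 * N + 1) ≤ 8 := by
  rcases (show N = 3 ∨ N = 4 ∨ N = 5 ∨ N = 6 ∨ 7 ≤ N by omega) with h | h | h | h | h
  iterate 4 (subst h; norm_num)
  have hNr : (7:ℝ) ≤ N := by exact_mod_cast h
  have h1 : ((1:ℝ) + 1 / N) ^ (2 * N) ≤ Real.exp 2 := by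
    refine (pow_le_pow_left₀ (by positivity)
      (by linarith [Real.add_one_le_exp (1 / (N:ℝ))] : (1:ℝ) + 1 / N ≤ Real.exp (1 / N)) _).trans
      (le_of_eq ?_)
    rw [← Real.exp_nat_mul]
    congr 1
    push_cast
    field_simp
  -- the sharper bound using one more term
  have h2 : ((1:ℝ) + 1 / N) ^ (2 * N + 1) ≤ Real.exp (2 + 1 / 49) := by
    have hx : (0:ℝ) < 1 / N := by positivity
    have hlog : Real.log (1 + 1 / N) ≤ 1 / N - (1 / N) ^ 2 / 2 + (1 / N) ^ 3 / 3 := by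
      set x : ℝ := 1 / N with hxd
      have hx1 : x ≤ 1 / 7 := by rw [hxd]; exact one_div_le_one_div_of_le (by norm_num) hNr
      rw [Real.log_le_iff_le_exp (by linarith)]
      have hb := Real.exp_bound' (x := 0) le_rfl zero_le_one (n := 1) one_pos
      have hnn : 0 ≤ x - x ^ 2 / 2 + x ^ 3 / 3 := by nlinarith
      have h4 := Real.sum_le_exp_of_nonneg hnn 4
      refine le_trans ?_ h4
      simp only [Finset.sum_range_succ, Finset.sum_range_zero, Nat.factorial]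
      push_cast
      nlinarith [pow_pos hx 3, pow_pos hx 4, pow_pos hx 2, mul_nonneg (pow_nonneg hx.le 3)
        (sub_nonneg.2 hx1), mul_nonneg (pow_nonneg hx.le 4) (sub_nonneg.2 hx1),
        mul_nonneg (pow_nonneg hx.le 5) (sub_nonneg.2 hx1), pow_pos hx 5, pow_pos hx 6,
        pow_pos hx 9, pow_pos hx 7, pow_pos hx 8]
    have hpos : (0:ℝ) < 1 + 1 / N := by positivity
    rw [← Real.exp_log (pow_pos hpos _), Real.log_pow]
    refine Real.exp_le_exp.2 ((mul_le_mul_of_nonneg_left hlog (Nat.cast_nonneg _)).trans ?_)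
    push_cast
    have e : (2 * (N:ℝ) + 1) * (1 / N - (1 / N) ^ 2 / 2 + (1 / N) ^ 3 / 3) =
        2 + (N + 2) / (6 * (N:ℝ) ^ 3) := by field_simp; ring
    rw [e, add_le_add_iff_left, div_le_div_iff₀ (by positivity) (by norm_num)]
    nlinarith [mul_le_mul hNr hNr (by norm_num) (by linarith : (0:ℝ) ≤ N)]
  refine h2.trans ?_
  have he := Real.exp_one_lt_d9
  have h3 : Real.exp (2 + 1 / 49) = Real.exp 1 * Real.exp 1 * Real.exp (1 / 49) := by
    rw [← Real.exp_add, ← Real.exp_add]; norm_num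
  have h4 : Real.exp (1 / 49 : ℝ) ≤ 49 / 48 := by
    have h5 := Real.add_one_le_exp (-(1 / 49 : ℝ))
    rw [Real.exp_neg] at h5
    have h6 := Real.exp_pos (1 / 49 : ℝ)
    rw [inv_eq_one_div, le_div_iff₀ h6] at h5
    linarith
  rw [h3]
  have := Real.exp_pos 1
  calc Real.exp 1 * Real.exp 1 * Real.exp (1 / 49) ≤ 2.7182818286 * 2.7182818286 * (49 / 48) := by
        gcongr
    _ ≤ 8 := by norm_num

lemma fact_bound : ∀ m : ℕ, ((m:ℝ) + 3) ^ (2 * m + 5) < 8 ^ (m + 2) * ((m + 2)! : ℝ) ^ 2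
  | 0 => by norm_num [Nat.factorial]
  | m + 1 => by
    have ih := fact_bound m
    have hp : ((m:ℝ) + 4) ^ (2 * m + 7) ≤ 8 * ((m:ℝ) + 3) ^ (2 * m + 7) := by
      have h := pow_bound (m + 3) (by omega)
      push_cast at h
      rw [show 2 * (m + 3) + 1 = 2 * m + 7 by ring,
        show (1:ℝ) + 1 / ((m:ℝ) + 3) = ((m:ℝ) + 4) / ((m:ℝ) + 3) by field_simp; ring, div_pow,
        div_le_iff₀ (by positivity)] at h
      exact h
    push_cast [Nat.factorial_succ]
    calc ((m:ℝ) + 1 + 3) ^ (2 * (m + 1) + 5) = ((m:ℝ) + 4) ^ (2 * m + 7) := by ring_nf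
      _ ≤ 8 * ((m:ℝ) + 3) ^ (2 * m + 7) := hp
      _ = 8 * ((m:ℝ) + 3) ^ 2 * ((m:ℝ) + 3) ^ (2 * m + 5) := by ring
      _ < 8 * ((m:ℝ) + 3) ^ 2 * (8 ^ (m + 2) * ((m + 2)! : ℝ) ^ 2) :=
          mul_lt_mul_of_pos_left ih (by positivity)
      _ = _ := by push_cast [Nat.factorial_succ]; ring

theorem main_lt {m : ℕ} {ψ : Fin (m + 2) → ℝ → ℝ} (hψ : ∀ i, Young (ψ i)) :
    isoConst (ball ψ) < isoConst (cornerSimplex (m + 2)) := by
  obtain ⟨hvol, hcov⟩ := cov_ball hψ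
  rw [isoConst_simplex, isoConst, hcov, Matrix.det_diagonal, hvol]
  set V := S ψ 1 with hV
  have hV0 : 0 < V := S_pos hψ one_pos
  set W : Fin (m + 2) → ℝ := fun i => (∫ y in body ψ 1, y i ^ 2) with hW
  have hW0 : ∀ i, 0 ≤ W i := fun i => integral_nonneg fun y => sq_nonneg _
  set k : ℝ := 2 * ((m:ℝ) + 3) / ((m:ℝ) + 4) with hk
  have h1 : ∏ i, W i / V ≤ ∏ i, k * N ψ i 1 ^ 2 / V ^ 2 := by
    refine Finset.prod_le_prod (fun i _ => div_nonneg (hW0 i) hV0.le) fun i _ => ?_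
    rw [div_le_div_iff₀ hV0 (pow_pos hV0 2)]
    calc W i * V ^ 2 = W i * V * V := by ring
      _ ≤ k * N ψ i 1 ^ 2 * V := mul_le_mul_of_nonneg_right (second_moment_le hψ i) hV0.le
  have h2 : ∏ i, k * N ψ i 1 ^ 2 / V ^ 2 ≤ (k / 4) ^ (m + 2) * V ^ 2 := by
    rw [Finset.prod_div_distrib, Finset.prod_mul_distrib, Finset.prod_const, Finset.prod_const,
      Finset.prod_pow, Finset.card_univ, Fintype.card_fin, div_le_iff₀ (by positivity)]
    have hp := product_le hψ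
    have hnn : 0 ≤ ∏ i, N ψ i 1 := Finset.prod_nonneg fun i _ => N_nonneg hψ i 1
    have hsq : (2 ^ (m + 2) * ∏ i, N ψ i 1) ^ 2 ≤ (V ^ (m + 2 + 1)) ^ 2 :=
      pow_le_pow_left₀ (by positivity) hp 2
    have h4 : (2 ^ (m + 2) * ∏ i, N ψ i 1) ^ 2 = 4 ^ (m + 2) * (∏ i, N ψ i 1) ^ 2 := by
      rw [mul_pow, ← pow_mul, mul_comm (m + 2) 2, pow_mul]; norm_num
    rw [h4] at hsq
    calc k ^ (m + 2) * (∏ i, N ψ i 1) ^ 2
        = (k / 4) ^ (m + 2) * (4 ^ (m + 2) * (∏ i, N ψ i 1) ^ 2) := by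
          rw [← mul_assoc, ← mul_pow, div_mul_cancel₀ _ (by norm_num : (4:ℝ) ≠ 0)]
      _ ≤ (k / 4) ^ (m + 2) * (V ^ (m + 2 + 1)) ^ 2 :=
          mul_le_mul_of_nonneg_left hsq (by positivity)
      _ = _ := by rw [← pow_mul, ← pow_mul]; ring
  refine Real.rpow_lt_rpow (div_nonneg (Finset.prod_nonneg fun i _ => div_nonneg (hW0 i) hV0.le)
    (sq_nonneg _)) ?_ (by positivity)
  refine lt_of_le_of_lt (div_le_div_of_nonneg_right (h1.trans h2) (sq_nonneg _)) ?_
  have e : (k / 4) ^ (m + 2) * V ^ 2 / (2 ^ (m + 2) * V) ^ 2 =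
      (((m:ℝ) + 3) / (8 * ((m:ℝ) + 4))) ^ (m + 2) := by
    rw [hk, mul_pow, ← pow_mul, mul_comm (m + 2) 2, pow_mul]
    norm_num only
    field_simp
    simp only [← mul_pow, div_pow]
    field_simp
    simp only [← mul_pow]
    congr 1
    ring
  rw [e, div_pow, mul_pow, div_lt_div_iff₀ (by positivity) (by positivity)]
  calc ((m:ℝ) + 3) ^ (m + 2) * (((m:ℝ) + 3) ^ (m + 3) * ((m:ℝ) + 4) ^ (m + 2))
      = ((m:ℝ) + 3) ^ (2 * m + 5) * ((m:ℝ) + 4) ^ (m + 2) := by ring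
    _ < 8 ^ (m + 2) * ((m + 2)! : ℝ) ^ 2 * ((m:ℝ) + 4) ^ (m + 2) :=
        mul_lt_mul_of_pos_right (fact_bound m) (by positivity)
    _ = _ := by ring

end Vale.Agent.P254.Orlicz
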