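import Vale.Agent.P254.Orlicz.Basic

/-!
One-dimensional lemmas for `g x = S (r - φ x)`, `0 < x`, where `S` is monotone, vanishes on
negative numbers and satisfies the product inequality of a log-concave function.
-/

open MeasureTheory Set

namespace Vale.Agent.P254.Orlicz

/-- Monotone, zero on negatives, and with the product inequality for inner versus outer pairs. -/
structure Good (S : ℝ → ℝ) : Prop where
  nonneg : ∀ r, 0 ≤ S r
  mono : Monotone S
  neg : ∀ r, r < 0 → S r = 0
  prod : ∀ a b c d : ℝ, a ≤ b → a ≤ c → b ≤ d → c ≤ d → b + c = a + d → S a * S d ≤ S b * S c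

lemma Good.prod_le {S : ℝ → ℝ} (hS : Good S) {a b c d : ℝ} (hab : a ≤ b) (hac : a ≤ c)
    (hbd : b ≤ d) (hcd : c ≤ d) (hsum : a + d ≤ b + c) : S a * S d ≤ S b * S c := by
  have h1 : max a (a + d - c) ≤ b := max_le hab (by linarith)
  have h2 : a + d - max a (a + d - c) ≤ c := by
    have := le_max_right a (a + d - c); linarith
  have h3 : a ≤ max a (a + d - c) := le_max_left _ _
  have h4 : max a (a + d - c) ≤ d := max_le (by linarith) (by linarith)
  calc S a * S d ≤ S (max a (a + d - c)) * S (a + d - max a (a + d - c)) :=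
        hS.prod a _ _ d h3 (by linarith) h4 (by linarith) (by ring)
    _ ≤ S b * S c := mul_le_mul (hS.mono h1) (hS.mono h2) (hS.nonneg _) (hS.nonneg _)

variable {S φ : ℝ → ℝ}

/-- The slice function. -/
def gfun (S φ : ℝ → ℝ) (r x : ℝ) : ℝ := S (r - φ x)

/-- Total mass of the slice function. -/
noncomputable def U (S φ : ℝ → ℝ) (r : ℝ) : ℝ := ∫ x in Ioi (0:ℝ), gfun S φ r x

/-- First moment of the slice function. -/
noncomputable def M (S φ : ℝ → ℝ) (r : ℝ) : ℝ := ∫ x in Ioi (0:ℝ), x * gfun S φ r x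

/-- Squared norm of the slice function. -/
noncomputable def Q (S φ : ℝ → ℝ) (r : ℝ) : ℝ := ∫ x in Ioi (0:ℝ), gfun S φ r x ^ 2

lemma gfun_anti (hS : Good S) (hφ : Young φ) (r : ℝ) : Antitone (gfun S φ r) := fun _ _ h =>
  hS.mono (by have := hφ.mono h; linarith)

lemma gfun_mono (hS : Good S) {r r' : ℝ} (h : r ≤ r') (x : ℝ) : gfun S φ r x ≤ gfun S φ r' x :=
  hS.mono (by linarith)

lemma gfun_nonneg (hS : Good S) (r x : ℝ) : 0 ≤ gfun S φ r x := hS.nonneg _

lemma gfun_eq_zero (hS : Good S) (hφ : Young φ) (r : ℝ) :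
    ∃ a, 0 < a ∧ ∀ x, a < x → gfun S φ r x = 0 := by
  obtain ⟨a, ha, hra⟩ := hφ.unb r
  refine ⟨a, ha, fun x hx => hS.neg _ ?_⟩
  have := hφ.mono hx.le
  linarith

lemma integrable_of_bound {f : ℝ → ℝ} {a C : ℝ} (hm : Measurable f)
    (hz : ∀ x, a < x → f x = 0) (hC : ∀ x ∈ Ioc 0 a, |f x| ≤ C) :
    IntegrableOn f (Ioi 0) := by
  have hi : IntegrableOn f (Ioc 0 a) :=
    IntegrableOn.of_bound measure_Ioc_lt_top hm.aestronglyMeasurable C
      ((ae_restrict_iff' measurableSet_Ioc).2 (Filter.Eventually.of_forall fun x hx => by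
        simpa [Real.norm_eq_abs] using hC x hx))
  have hzero : IntegrableOn f (Ioi a) :=
    (integrableOn_zero).congr_fun (fun x hx => (hz x hx).symm) measurableSet_Ioi
  exact (hi.union hzero).mono_set fun x hx => by
    rcases le_or_gt x a with h | h
    · exact Or.inl ⟨hx, h⟩
    · exact Or.inr h

lemma integrable_g (hS : Good S) (hφ : Young φ) (r : ℝ) :
    IntegrableOn (gfun S φ r) (Ioi 0) := by
  obtain ⟨a, -, ha⟩ := gfun_eq_zero hS hφ r
  refine integrable_of_bound (C := gfun S φ r 0) (gfun_anti hS hφ r).measurable ha fun x hx => ?_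
  rw [abs_of_nonneg (gfun_nonneg hS r x)]
  exact gfun_anti hS hφ r hx.1.le

lemma integrable_xg (hS : Good S) (hφ : Young φ) (r : ℝ) :
    IntegrableOn (fun x => x * gfun S φ r x) (Ioi 0) := by
  obtain ⟨a, _, ha⟩ := gfun_eq_zero hS hφ r
  refine integrable_of_bound (a := a) (C := a * gfun S φ r 0)
    (measurable_id.mul (gfun_anti hS hφ r).measurable) (fun x hx => by simp [ha x hx]) fun x hx => ?_
  rw [abs_of_nonneg (mul_nonneg hx.1.le (gfun_nonneg hS r x))]
  exact mul_le_mul hx.2 (gfun_anti hS hφ r hx.1.le) (gfun_nonneg hS r x) (by linarith [hx.1, hx.2])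

lemma integrable_g2 (hS : Good S) (hφ : Young φ) (r : ℝ) :
    IntegrableOn (fun x => gfun S φ r x ^ 2) (Ioi 0) := by
  obtain ⟨a, _, ha⟩ := gfun_eq_zero hS hφ r
  refine integrable_of_bound (a := a) (C := gfun S φ r 0 ^ 2)
    ((gfun_anti hS hφ r).measurable.pow_const 2) (fun x hx => by simp [ha x hx]) fun x hx => ?_
  rw [abs_of_nonneg (sq_nonneg _)]
  exact pow_le_pow_left₀ (gfun_nonneg hS r x) (gfun_anti hS hφ r hx.1.le) 2

lemma U_nonneg (hS : Good S) (r : ℝ) : 0 ≤ U S φ r :=
  integral_nonneg fun x => gfun_nonneg hS r x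

lemma M_nonneg (hS : Good S) (r : ℝ) : 0 ≤ M S φ r :=
  setIntegral_nonneg measurableSet_Ioi fun x hx => mul_nonneg (le_of_lt hx) (gfun_nonneg hS r x)

lemma Q_nonneg (r : ℝ) : 0 ≤ Q S φ r := integral_nonneg fun _ => sq_nonneg _

lemma U_mono (hS : Good S) (hφ : Young φ) : Monotone (U S φ) := fun r r' h =>
  integral_mono (integrable_g hS hφ r) (integrable_g hS hφ r') fun x => gfun_mono hS h x

lemma M_mono (hS : Good S) (hφ : Young φ) : Monotone (M S φ) := fun r r' h =>
  setIntegral_mono_on (integrable_xg hS hφ r) (integrable_xg hS hφ r') measurableSet_Ioi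
    fun x hx => mul_le_mul_of_nonneg_left (gfun_mono hS h x) (le_of_lt hx)

lemma Q_mono (hS : Good S) (hφ : Young φ) : Monotone (Q S φ) := fun r r' h =>
  integral_mono (integrable_g2 hS hφ r) (integrable_g2 hS hφ r') fun x =>
    pow_le_pow_left₀ (gfun_nonneg hS r x) (gfun_mono hS h x) 2

lemma ae_zero_of_U (hS : Good S) (hφ : Young φ) {r : ℝ} (h : U S φ r = 0) :
    gfun S φ r =ᵐ[volume.restrict (Ioi 0)] 0 :=
  (integral_eq_zero_iff_of_nonneg (fun x => gfun_nonneg hS r x) (integrable_g hS hφ r)).1 h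

lemma M_eq_zero (hS : Good S) (hφ : Young φ) {r : ℝ} (h : U S φ r = 0) : M S φ r = 0 := by
  refine integral_eq_zero_of_ae ?_
  filter_upwards [ae_zero_of_U hS hφ h] with x hx
  simp [hx]

lemma Q_eq_zero (hS : Good S) (hφ : Young φ) {r : ℝ} (h : U S φ r = 0) : Q S φ r = 0 := by
  refine integral_eq_zero_of_ae ?_
  filter_upwards [ae_zero_of_U hS hφ h] with x hx
  simp [hx]

/-- The tail integral of the slice function. -/
noncomputable def tail (S φ : ℝ → ℝ) (r x : ℝ) : ℝ :=
  ∫ t in Ioi (0:ℝ), gfun S φ r (x + t)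

lemma tail_ind (r x : ℝ) :
    tail S φ r x = ∫ t, (Ioi x).indicator (gfun S φ r) t := by
  rw [integral_indicator measurableSet_Ioi, tail]
  have h := (measurePreserving_add_left volume x).setIntegral_preimage_emb
    (measurableEmbedding_addLeft x) (gfun S φ r) (Ioi x)
  simpa using h

lemma integrableOn_shift {f : ℝ → ℝ} {x : ℝ} (hx : 0 ≤ x) (hf : IntegrableOn f (Ioi 0)) :
    IntegrableOn (fun t => f (x + t)) (Ioi 0) := by
  have h := ((measurePreserving_add_left volume x).integrableOn_comp_preimage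
    (measurableEmbedding_addLeft x) (f := f) (s := Ioi x)).2 (hf.mono_set (Ioi_subset_Ioi hx))
  simp only [preimage_const_add_Ioi, sub_self] at h
  exact h

/-- Fubini for the tail. -/
lemma integral_mul_tail (hS : Good S) (hφ : Young φ) (r : ℝ) {u : ℝ → ℝ} (hum : Measurable u)
    (hu : ∃ C, ∀ x, |u x| ≤ C) :
    ∫ x in Ioi (0:ℝ), u x * tail S φ r x =
      ∫ t in Ioi (0:ℝ), gfun S φ r t * ∫ x in Ioo 0 t, u x := by
  obtain ⟨C, hC⟩ := hu
  obtain ⟨a, ha0, ha⟩ := gfun_eq_zero hS hφ r
  have hanti := gfun_anti hS hφ r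
  let k : ℝ → ℝ → ℝ := fun x t =>
    {p : ℝ × ℝ | 0 < p.1 ∧ p.1 < p.2}.indicator (fun p => u p.1 * gfun S φ r p.2) (x, t)
  have hset : MeasurableSet {p : ℝ × ℝ | 0 < p.1 ∧ p.1 < p.2} :=
    (measurableSet_lt measurable_const measurable_fst).inter
      (measurableSet_lt measurable_fst measurable_snd)
  have hk : Integrable (Function.uncurry k) (volume.prod volume) := by
    have hm : Measurable (Function.uncurry k) :=
      ((hum.comp measurable_fst).mul (hanti.measurable.comp measurable_snd)).indicator hset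
    have hsupp : ∀ p : ℝ × ℝ, p ∉ Icc (0:ℝ) a ×ˢ Icc (0:ℝ) a → Function.uncurry k p = 0 := by
      intro p hp
      by_cases h : p ∈ {p : ℝ × ℝ | 0 < p.1 ∧ p.1 < p.2}
      · have h2 : a < p.2 := by
          by_contra hc
          rw [not_lt] at hc
          exact hp ⟨⟨h.1.le, h.2.le.trans hc⟩, ⟨(h.1.trans h.2).le, hc⟩⟩
        simp [Function.uncurry, k, Set.indicator, ha p.2 h2]
      · simp [Function.uncurry, k, indicator_of_notMem h]
    refine (IntegrableOn.integrable_of_forall_notMem_eq_zero ?_ hsupp)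
    refine IntegrableOn.of_bound ?_ hm.aestronglyMeasurable (C * gfun S φ r 0)
      ((ae_restrict_iff' (measurableSet_Icc.prod measurableSet_Icc)).2
        (Filter.Eventually.of_forall fun p hp => ?_))
    · rw [Measure.prod_prod]
      exact ENNReal.mul_lt_top measure_Icc_lt_top measure_Icc_lt_top
    · have hC0 : (0:ℝ) ≤ C := (abs_nonneg _).trans (hC 0)
      rw [Real.norm_eq_abs]
      by_cases h : p ∈ {p : ℝ × ℝ | 0 < p.1 ∧ p.1 < p.2}
      · simp only [Function.uncurry, k, indicator_of_mem h, abs_mul]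
        refine mul_le_mul (hC _) ?_ (abs_nonneg _) hC0
        rw [abs_of_nonneg (gfun_nonneg hS r p.2)]
        exact hanti hp.2.1
      · simp only [Function.uncurry, k, indicator_of_notMem h, abs_zero]
        exact mul_nonneg hC0 (gfun_nonneg hS r 0)
  have h1 := integral_integral_swap hk
  have e1 : ∀ x, (∫ t, k x t) = (Ioi 0).indicator (fun x => u x * tail S φ r x) x := by
    intro x
    by_cases hx : 0 < x
    · rw [indicator_of_mem (show x ∈ Ioi (0:ℝ) from hx), tail_ind, ← integral_const_mul]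
      refine integral_congr_ae (Filter.Eventually.of_forall fun t => ?_)
      by_cases ht : x < t
      · simp [k, Set.indicator, hx, ht]
      · simp [k, Set.indicator, ht]
    · rw [indicator_of_notMem (show x ∉ Ioi (0:ℝ) from hx)]
      simp [k, Set.indicator, hx]
  have e2 : ∀ t, (∫ x, k x t) =
      (Ioi 0).indicator (fun t => gfun S φ r t * ∫ x in Ioo 0 t, u x) t := by
    intro t
    by_cases ht : 0 < t
    · rw [indicator_of_mem (show t ∈ Ioi (0:ℝ) from ht), ← integral_indicator measurableSet_Ioo,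
        ← integral_const_mul]
      refine integral_congr_ae (Filter.Eventually.of_forall fun x => ?_)
      by_cases hx : 0 < x ∧ x < t
      · simp [k, Set.indicator, hx, mul_comm]
      · simp [k, Set.indicator, hx]
    · rw [indicator_of_notMem (show t ∉ Ioi (0:ℝ) from ht)]
      refine integral_eq_zero_of_ae (Filter.Eventually.of_forall fun x => ?_)
      have : ¬ (0 < x ∧ x < t) := fun h => ht (h.1.trans h.2)
      simp [k, Set.indicator, this]
  simp only [e1, e2, integral_indicator measurableSet_Ioi] at h1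
  exact h1

lemma tail_le (hS : Good S) (hφ : Young φ) (r : ℝ) {x : ℝ} (hx : 0 ≤ x) :
    |tail S φ r x| ≤ U S φ r := by
  have h : tail S φ r x = ∫ t in Ioi x, gfun S φ r t := by
    rw [tail_ind, integral_indicator measurableSet_Ioi]
  rw [tail, abs_of_nonneg (integral_nonneg fun t => gfun_nonneg hS r _), ← tail, h]
  exact setIntegral_mono_set (integrable_g hS hφ r)
    (Filter.Eventually.of_forall fun t => gfun_nonneg hS r t)
    (Filter.Eventually.of_forall (Ioi_subset_Ioi hx))

lemma integral_tail (hS : Good S) (hφ : Young φ) (r : ℝ) :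
    ∫ x in Ioi (0:ℝ), tail S φ r x = M S φ r := by
  have := integral_mul_tail hS hφ r (u := fun _ => (1:ℝ)) measurable_const ⟨1, by simp⟩
  simp only [one_mul] at this
  rw [this]
  refine setIntegral_congr_fun measurableSet_Ioi fun t ht => ?_
  simp [Real.volume_real_Ioo_of_le (le_of_lt ht), mul_comm]

lemma integral_g_tail (hS : Good S) (hφ : Young φ) (r : ℝ) :
    ∫ x in Ioi (0:ℝ), gfun S φ r x * tail S φ r x = U S φ r ^ 2 / 2 := by
  set G : ℝ → ℝ := (Ioi 0).indicator (gfun S φ r) with hG
  have hGm : Measurable G := (gfun_anti hS hφ r).measurable.indicator measurableSet_Ioi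
  have hGb : ∃ C, ∀ x, |G x| ≤ C := ⟨gfun S φ r 0, fun x => by
    by_cases hx : x ∈ Ioi (0:ℝ)
    · rw [hG, indicator_of_mem hx, abs_of_nonneg (gfun_nonneg hS r x)]
      exact gfun_anti hS hφ r (le_of_lt hx)
    · rw [hG, indicator_of_notMem hx, abs_zero]
      exact gfun_nonneg hS r 0⟩
  have key := integral_mul_tail hS hφ r hGm hGb
  have hl : ∫ x in Ioi (0:ℝ), G x * tail S φ r x =
      ∫ x in Ioi (0:ℝ), gfun S φ r x * tail S φ r x :=
    setIntegral_congr_fun measurableSet_Ioi fun x hx => by simp [hG, mem_Ioi.1 hx]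
  rw [hl] at key
  have hr : ∀ t ∈ Ioi (0:ℝ), gfun S φ r t * (∫ x in Ioo 0 t, G x) =
      gfun S φ r t * (U S φ r - tail S φ r t) := by
    intro t ht
    have h1 : ∫ x in Ioo 0 t, G x = ∫ x in Ioc 0 t, gfun S φ r x := by
      rw [← integral_Ioc_eq_integral_Ioo]
      exact setIntegral_congr_fun measurableSet_Ioc fun x hx => by simp [hG, hx.1]
    have h2 : tail S φ r t = ∫ x in Ioi t, gfun S φ r x := by
      rw [tail_ind, integral_indicator measurableSet_Ioi]
    have h3 := setIntegral_union (μ := volume) (f := gfun S φ r)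
      (Ioc_disjoint_Ioi_same (a := (0:ℝ)) (b := t)) measurableSet_Ioi
      ((integrable_g hS hφ r).mono_set Ioc_subset_Ioi_self)
      ((integrable_g hS hφ r).mono_set (Ioi_subset_Ioi (le_of_lt ht)))
    rw [Ioc_union_Ioi_eq_Ioi (le_of_lt ht)] at h3
    rw [h1, h2, U, h3, add_sub_cancel_right]
  have hR : ∫ t in Ioi (0:ℝ), gfun S φ r t * (∫ x in Ioo 0 t, G x) =
      U S φ r * U S φ r - ∫ t in Ioi (0:ℝ), gfun S φ r t * tail S φ r t := by
    rw [setIntegral_congr_fun measurableSet_Ioi hr]
    simp only [mul_sub]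
    rw [integral_sub ((integrable_g hS hφ r).mul_const _), integral_mul_const]
    · rfl
    · refine Integrable.mul_bdd (c := U S φ r) (integrable_g hS hφ r) ?_ ?_
      · have hanti : AntitoneOn (tail S φ r) (Ioi 0) := by
          intro x hx y hy hxy
          rw [tail_ind, tail_ind, integral_indicator measurableSet_Ioi,
            integral_indicator measurableSet_Ioi]
          exact setIntegral_mono_set
            ((integrable_g hS hφ r).mono_set (Ioi_subset_Ioi (le_of_lt hx)))
            (Filter.Eventually.of_forall fun t => gfun_nonneg hS r t)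
            (Filter.Eventually.of_forall (Ioi_subset_Ioi hxy))
        exact (aemeasurable_restrict_of_antitoneOn measurableSet_Ioi hanti).aestronglyMeasurable
      · refine (ae_restrict_iff' measurableSet_Ioi).2 (Filter.Eventually.of_forall fun t ht => ?_)
        rw [Real.norm_eq_abs]
        exact tail_le hS hφ r (le_of_lt ht)
  rw [hR] at key
  linarith [sq (U S φ r)]

/-- `U^3 ≥ 2 M Q`. -/
theorem cube_ge (hS : Good S) (hφ : Young φ) (r : ℝ) :
    2 * M S φ r * Q S φ r ≤ U S φ r ^ 3 := by
  rcases (U_nonneg hS (φ := φ) r).eq_or_lt with h0 | hU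
  · simp [M_eq_zero hS hφ h0.symm, ← h0]
  set g := gfun S φ r with hg
  set T := tail S φ r with hT
  set c := 2 * Q S φ r / U S φ r ^ 2 with hc
  have hc0 : 0 ≤ c := by have := Q_nonneg (S := S) (φ := φ) r; positivity
  -- the sign set of `g - c T` is a final segment
  have hmon : ∀ x y, 0 < x → x < y → c * T x ≤ g x → c * T y ≤ g y := by
    intro x y hx hxy hle
    rcases (gfun_nonneg hS (φ := φ) r x).eq_or_lt with hgx | hgx
    · have hz : ∀ t, x ≤ t → gfun S φ r t = 0 := fun t ht =>
        le_antisymm ((gfun_anti hS hφ r ht).trans hgx.symm.le) (gfun_nonneg hS r t)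
      have hTy : T y = 0 := setIntegral_eq_zero_of_forall_eq_zero fun t ht =>
        hz _ (by linarith [mem_Ioi.1 ht])
      rw [hTy, mul_zero]; exact gfun_nonneg hS r y
    have hTT : T y * g x ≤ g y * T x := by
      rw [hT, tail, tail, ← integral_mul_const, ← integral_const_mul]
      refine setIntegral_mono_on ?_ ?_ measurableSet_Ioi fun t ht => ?_
      · exact Integrable.mul_const (integrableOn_shift (by linarith) (integrable_g hS hφ r)) _
      · exact Integrable.const_mul (integrableOn_shift hx.le (integrable_g hS hφ r)) _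
      · have ht' := mem_Ioi.1 ht
        have h1 := hφ.quad (a := x) (b := y) (c := x + t) (d := y + t) hxy.le (by linarith)
          (by linarith) (by linarith) (by linarith)
        exact hS.prod_le (a := r - φ (y + t)) (d := r - φ x) (b := r - φ y) (c := r - φ (x + t))
          (by linarith [hφ.mono (show y ≤ y + t by linarith)])
          (by linarith [hφ.mono (show x + t ≤ y + t by linarith)])
          (by linarith [hφ.mono hxy.le]) (by linarith [hφ.mono (show x ≤ x + t by linarith)])
          (by linarith)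
    have hgy : 0 ≤ g y := gfun_nonneg hS r y
    have : g x * (c * T y) ≤ g x * g y :=
      calc g x * (c * T y) = c * (T y * g x) := by ring
        _ ≤ c * (g y * T x) := mul_le_mul_of_nonneg_left hTT hc0
        _ = g y * (c * T x) := by ring
        _ ≤ g y * g x := mul_le_mul_of_nonneg_left hle hgy
        _ = g x * g y := mul_comm _ _
    exact le_of_mul_le_mul_left this hgx
  have hTi : IntegrableOn T (Ioi 0) := by
    obtain ⟨a, ha0, ha⟩ := gfun_eq_zero hS hφ r
    have hanti : AntitoneOn T (Ioi 0) := by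
      intro x hx y _ hxy
      rw [hT, tail_ind, tail_ind, integral_indicator measurableSet_Ioi,
        integral_indicator measurableSet_Ioi]
      exact setIntegral_mono_set
        ((integrable_g hS hφ r).mono_set (Ioi_subset_Ioi (le_of_lt hx)))
        (Filter.Eventually.of_forall fun t => gfun_nonneg hS r t)
        (Filter.Eventually.of_forall (Ioi_subset_Ioi hxy))
    have h1 : IntegrableOn T (Ioc 0 a) :=
      IntegrableOn.of_bound measure_Ioc_lt_top
        ((aemeasurable_restrict_of_antitoneOn measurableSet_Ioc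
          (hanti.mono Ioc_subset_Ioi_self)).aestronglyMeasurable) (U S φ r)
        ((ae_restrict_iff' measurableSet_Ioc).2 (Filter.Eventually.of_forall fun x hx => by
          rw [Real.norm_eq_abs]; exact tail_le hS hφ r hx.1.le))
    have h2 : IntegrableOn T (Ioi a) :=
      integrableOn_zero.congr_fun (fun x hx => (setIntegral_eq_zero_of_forall_eq_zero
        fun t ht => ha _ (by linarith [mem_Ioi.1 ht, mem_Ioi.1 hx])).symm) measurableSet_Ioi
    exact (h1.union h2).mono_set fun x hx => by
      rcases le_or_gt x a with h | h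
      · exact Or.inl ⟨hx, h⟩
      · exact Or.inr h
  have hgT : IntegrableOn (fun x => g x * T x) (Ioi 0) := by
    refine Integrable.bdd_mul (c := gfun S φ r 0) hTi
      (gfun_anti hS hφ r).measurable.aestronglyMeasurable ?_
    refine (ae_restrict_iff' measurableSet_Ioi).2 (Filter.Eventually.of_forall fun x hx => ?_)
    rw [Real.norm_eq_abs, abs_of_nonneg (gfun_nonneg hS r x)]
    exact gfun_anti hS hφ r (le_of_lt hx)
  set g0 := sSup (insert 0 (g '' {x | 0 < x ∧ c * T x ≤ g x})) with hg0
  have hbdd : BddAbove (insert 0 (g '' {x | 0 < x ∧ c * T x ≤ g x})) := by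
    refine ⟨g 0, ?_⟩
    rintro v (rfl | ⟨x, hx, rfl⟩)
    · exact gfun_nonneg hS r 0
    · exact gfun_anti hS hφ r hx.1.le
  have hsign : ∀ x ∈ Ioi (0:ℝ), g x * (g x - c * T x) ≤ g0 * (g x - c * T x) := by
    intro x hx
    by_cases h : c * T x ≤ g x
    · exact mul_le_mul_of_nonneg_right
        (le_csSup hbdd (Or.inr ⟨x, ⟨hx, h⟩, rfl⟩)) (by linarith)
    · rw [not_le] at h
      refine mul_le_mul_of_nonpos_right ?_ (by linarith)
      refine csSup_le (insert_nonempty _ _) ?_
      rintro v (rfl | ⟨y, hy, rfl⟩)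
      · exact gfun_nonneg hS r x
      · refine gfun_anti hS hφ r ?_
        by_contra hc'
        exact absurd (hmon y x hy.1 (not_le.1 hc') hy.2) (not_le.2 h)
  have hI1 : ∫ x in Ioi (0:ℝ), g x * (g x - c * T x) = 0 := by
    have : ∀ x, g x * (g x - c * T x) = g x ^ 2 - c * (g x * T x) := fun x => by ring
    simp only [this]
    rw [integral_sub (integrable_g2 hS hφ r) (hgT.const_mul c), integral_const_mul, hT, hg,
      integral_g_tail hS hφ r, hc]
    have hU0 := hU.ne'
    field_simp
    simp [Q]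
  have hI2 : ∫ x in Ioi (0:ℝ), g0 * (g x - c * T x) = g0 * (U S φ r - c * M S φ r) := by
    rw [integral_const_mul, integral_sub (integrable_g hS hφ r) (hTi.const_mul c),
      integral_const_mul, hT, integral_tail hS hφ r]
    rfl
  have hle : ∫ x in Ioi (0:ℝ), g x * (g x - c * T x) ≤
      ∫ x in Ioi (0:ℝ), g0 * (g x - c * T x) := setIntegral_mono_on ?_ ?_ measurableSet_Ioi hsign
  · rw [hI1, hI2] at hle
    have hg0n : 0 ≤ g0 := le_csSup hbdd (mem_insert _ _)
    rcases hg0n.eq_or_lt with hz | hz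
    · -- then `g` vanishes almost everywhere
      exfalso
      have hprod : ∀ x ∈ Ioi (0:ℝ), g x * (g x - c * T x) ≤ 0 := fun x hx => by
        simpa [← hz] using hsign x hx
      have h0 : (fun x => -(g x * (g x - c * T x))) =ᵐ[volume.restrict (Ioi 0)] 0 := by
        refine (setIntegral_eq_zero_iff_of_nonneg_ae ?_ ?_).1 (by rw [integral_neg, hI1, neg_zero])
        · exact (ae_restrict_iff' measurableSet_Ioi).2
            (Filter.Eventually.of_forall fun x hx => neg_nonneg.2 (hprod x hx))
        · refine Integrable.neg ?_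
          exact ((integrable_g2 hS hφ r).sub (hgT.const_mul c)).congr
            (Filter.Eventually.of_forall fun x => by simp [hg]; ring)
      have hz2 : g =ᵐ[volume.restrict (Ioi 0)] 0 := by
        filter_upwards [h0, ae_restrict_mem measurableSet_Ioi] with x hx hxm
        simp only [Pi.zero_apply, neg_eq_zero, mul_eq_zero] at hx ⊢
        rcases hx with hx | hx
        · exact hx
        · refine le_antisymm ?_ (gfun_nonneg hS r x)
          calc g x ≤ g0 := le_csSup hbdd (Or.inr ⟨x, ⟨hxm, by linarith⟩, rfl⟩)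
            _ = 0 := hz.symm
      exact hU.ne' (integral_eq_zero_of_ae hz2)
    · have h2 : 0 ≤ U S φ r - c * M S φ r := nonneg_of_mul_nonneg_right hle hz
      rw [hc, div_mul_eq_mul_div, sub_nonneg, div_le_iff₀ (by positivity)] at h2
      linarith [h2]
  · exact ((integrable_g2 hS hφ r).sub (hgT.const_mul c)).congr
      (Filter.Eventually.of_forall fun x => by simp [hg]; ring)
  · exact ((integrable_g hS hφ r).sub (hTi.const_mul c)).const_mul g0

/-- The mean of the slice function increases with the level. -/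
theorem mean_mono (hS : Good S) (hφ : Young φ) {r r' : ℝ} (h : r ≤ r') :
    M S φ r * U S φ r' ≤ M S φ r' * U S φ r := by
  rcases (U_nonneg hS (φ := φ) r).eq_or_lt with h0 | hU
  · simp [M_eq_zero hS hφ h0.symm, ← h0]
  set c0 := M S φ r / U S φ r with hc0
  have hc0n : 0 ≤ c0 := div_nonneg (M_nonneg hS r) hU.le
  have hcent : ∫ x in Ioi (0:ℝ), (x - c0) * gfun S φ r x = 0 := by
    simp only [sub_mul]
    rw [integral_sub (integrable_xg hS hφ r) ((integrable_g hS hφ r).const_mul c0),
      integral_const_mul]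
    show M S φ r - c0 * U S φ r = 0
    rw [hc0, div_mul_cancel₀ _ hU.ne', sub_self]
  have hgc : 0 < gfun S φ r c0 := by
    rcases (gfun_nonneg hS (φ := φ) r c0).eq_or_lt with hz | hz
    · exfalso
      have hzero : ∀ x, c0 ≤ x → gfun S φ r x = 0 := fun x hx =>
        le_antisymm ((gfun_anti hS hφ r hx).trans hz.symm.le) (gfun_nonneg hS r x)
      have hi : IntegrableOn (fun x => (c0 - x) * gfun S φ r x) (Ioi 0) := by
        simp only [sub_mul]
        exact ((integrable_g hS hφ r).const_mul c0).sub (integrable_xg hS hφ r)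
      have h0 : (fun x => (c0 - x) * gfun S φ r x) =ᵐ[volume.restrict (Ioi 0)] 0 := by
        refine (setIntegral_eq_zero_iff_of_nonneg_ae ?_ hi).1 ?_
        · refine Filter.Eventually.of_forall fun x => ?_
          rcases le_or_gt c0 x with hx | hx
          · simp [hzero x hx]
          · exact mul_nonneg (by linarith) (gfun_nonneg hS r x)
        · have : ∀ x, (c0 - x) * gfun S φ r x = -((x - c0) * gfun S φ r x) := fun x => by ring
          simp only [this, integral_neg, hcent, neg_zero]
      have : gfun S φ r =ᵐ[volume.restrict (Ioi 0)] 0 := by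
        filter_upwards [h0] with x hx
        simp only [Pi.zero_apply, mul_eq_zero] at hx ⊢
        rcases hx with hx | hx
        · exact hzero x (by linarith)
        · exact hx
      exact hU.ne' (integral_eq_zero_of_ae this)
    · exact hz
  have hpt : ∀ x ∈ Ioi (0:ℝ), gfun S φ r' c0 * ((x - c0) * gfun S φ r x) ≤
      gfun S φ r c0 * ((x - c0) * gfun S φ r' x) := by
    intro x _
    have key : ∀ u v, u ≤ v →
        gfun S φ r' u * gfun S φ r v ≤ gfun S φ r u * gfun S φ r' v := fun u v huv =>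
      mul_comm (gfun S φ r' u) _ ▸ hS.prod (r - φ v) (r - φ u) (r' - φ v) (r' - φ u)
        (by linarith [hφ.mono huv]) (by linarith) (by linarith) (by linarith [hφ.mono huv])
        (by ring)
    rcases le_total c0 x with hx | hx
    · have := mul_le_mul_of_nonneg_left (key c0 x hx) (sub_nonneg.2 hx)
      linarith
    · have := mul_le_mul_of_nonpos_left (key x c0 hx) (sub_nonpos.2 hx)
      linarith
  have hi : ∀ s, IntegrableOn (fun x => (x - c0) * gfun S φ s x) (Ioi 0) := fun s => by
    simp only [sub_mul]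
    exact (integrable_xg hS hφ s).sub ((integrable_g hS hφ s).const_mul c0)
  have hle := setIntegral_mono_on ((hi r).const_mul _) ((hi r').const_mul _) measurableSet_Ioi hpt
  rw [integral_const_mul, integral_const_mul, hcent, mul_zero] at hle
  have h2 : 0 ≤ ∫ x in Ioi (0:ℝ), (x - c0) * gfun S φ r' x := nonneg_of_mul_nonneg_right hle hgc
  simp only [sub_mul] at h2
  rw [integral_sub (integrable_xg hS hφ r') ((integrable_g hS hφ r').const_mul c0),
    integral_const_mul] at h2
  change 0 ≤ M S φ r' - c0 * U S φ r' at h2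
  rw [hc0, sub_nonneg, div_mul_eq_mul_div, div_le_iff₀ hU] at h2
  linarith

/-- The ratio `Q / U` increases with the level. -/
theorem ratio_mono (hS : Good S) (hφ : Young φ) {r r' : ℝ} (h : r ≤ r') :
    Q S φ r * U S φ r' ≤ Q S φ r' * U S φ r := by
  rcases (U_nonneg hS (φ := φ) r).eq_or_lt with h0 | hU
  · simp [Q_eq_zero hS hφ h0.symm, ← h0]
  set g := gfun S φ r with hg
  set ρ := Q S φ r / U S φ r with hρ
  have hρ0 : 0 ≤ ρ := div_nonneg (Q_nonneg r) hU.le
  have hQρ : Q S φ r = ρ * U S φ r := by rw [hρ, div_mul_cancel₀ _ hU.ne']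
  have hex : ∃ x, 0 < x ∧ ρ / 2 < g x := by
    by_contra hc
    push Not at hc
    have hb : Q S φ r ≤ ρ / 2 * U S φ r := by
      rw [Q, U, ← integral_const_mul]
      refine setIntegral_mono_on (integrable_g2 hS hφ r) ((integrable_g hS hφ r).const_mul _)
        measurableSet_Ioi fun x hx => ?_
      rw [sq]
      exact mul_le_mul_of_nonneg_right (hc x hx) (gfun_nonneg hS r x)
    have hQ0 : Q S φ r = 0 := by nlinarith [Q_nonneg (S := S) (φ := φ) r]
    have h2 := (integral_eq_zero_iff_of_nonneg (fun x => sq_nonneg _) (integrable_g2 hS hφ r)).1 hQ0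
    refine hU.ne' (integral_eq_zero_of_ae ?_)
    filter_upwards [h2] with x hx
    simpa using hx
  obtain ⟨a, ha0, ha⟩ := gfun_eq_zero hS hφ r
  set A := {x : ℝ | 0 < x ∧ ρ / 2 < g x} with hA
  have hAne : A.Nonempty := hex
  have hAb : BddAbove A := ⟨a, fun x hx => by
    by_contra hc
    have h2 := hx.2
    rw [hg, ha x (not_le.1 hc)] at h2
    linarith⟩
  set x0 := sSup A with hx0
  have hx0p : 0 < x0 := by
    obtain ⟨x, hx⟩ := hAne
    exact lt_of_lt_of_le hx.1 (le_csSup hAb hx)
  have hlo : ∀ x, 0 < x → x < x0 → ρ / 2 ≤ g x := by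
    intro x _ hxl
    obtain ⟨y, hy, hxy⟩ := exists_lt_of_lt_csSup hAne hxl
    exact hy.2.le.trans (gfun_anti hS hφ r hxy.le)
  have hhi : ∀ x, x0 < x → g x ≤ ρ / 2 := by
    intro x hx
    by_contra hc
    exact absurd (le_csSup hAb ⟨hx0p.trans hx, not_le.1 hc⟩) (not_le.2 hx)
  -- scaling factor
  obtain ⟨κ, hκ1, hκ⟩ : ∃ κ, 1 ≤ κ ∧ φ (κ * x0) = φ x0 + (r' - r) := by
    obtain ⟨y, hy0, hy⟩ := hφ.unb (φ x0 + (r' - r))
    have hxy : x0 ≤ y := by
      by_contra hc
      have := hφ.mono (not_le.1 hc).le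
      linarith
    have hmem : φ x0 + (r' - r) ∈ Icc (φ x0) (φ y) := ⟨by linarith, hy.le⟩
    obtain ⟨z, hz, hzv⟩ := intermediate_value_Icc hxy hφ.cont.continuousOn hmem
    exact ⟨z / x0, by rw [le_div_iff₀ hx0p]; linarith [hz.1],
      by rw [div_mul_cancel₀ _ hx0p.ne', hzv]⟩
  have hκ0 : 0 < κ := lt_of_lt_of_le one_pos hκ1
  set hfun : ℝ → ℝ := fun x => gfun S φ r' (κ * x) with hh
  have hinc : ∀ x y, 0 ≤ x → x ≤ y → φ (κ * x) + φ y ≤ φ x + φ (κ * y) := by
    intro x y hx hxy
    have h1 : x ≤ κ * x := le_mul_of_one_le_left hx hκ1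
    have h2 : κ * x ≤ κ * y := mul_le_mul_of_nonneg_left hxy hκ0.le
    have h3 : y ≤ κ * y := le_mul_of_one_le_left (hx.trans hxy) hκ1
    exact hφ.quad h1 hxy h2 h3 (by nlinarith)
  have hpt : ∀ x ∈ Ioi (0:ℝ), x ≠ x0 →
      g x ^ 2 - ρ * g x ≤ hfun x ^ 2 - ρ * hfun x := by
    intro x hx hne
    have hx' : 0 < x := hx
    rcases lt_or_gt_of_ne hne with hlt | hgt
    · have h1 := hinc x x0 hx'.le hlt.le
      have hge : g x ≤ hfun x := hS.mono (by linarith)
      have := hlo x hx' hlt
      nlinarith [mul_nonneg (sub_nonneg.2 hge) (show 0 ≤ hfun x + g x - ρ by linarith)]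
    · have h1 := hinc x0 x hx0p.le hgt.le
      have hle : hfun x ≤ g x := hS.mono (by linarith)
      have := hhi x hgt
      nlinarith [mul_nonneg (sub_nonneg.2 hle) (show 0 ≤ ρ - (hfun x + g x) by linarith)]
  have hhi1 : IntegrableOn hfun (Ioi 0) := by
    have := (integrableOn_Ioi_comp_mul_left_iff (gfun S φ r') (0:ℝ) hκ0).2
      (by simpa using integrable_g hS hφ r')
    exact this
  have hhi2 : IntegrableOn (fun x => hfun x ^ 2) (Ioi 0) := by
    have := (integrableOn_Ioi_comp_mul_left_iff (fun y => gfun S φ r' y ^ 2) (0:ℝ) hκ0).2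
      (by simpa using integrable_g2 hS hφ r')
    exact this
  have hle : ∫ x in Ioi (0:ℝ), (g x ^ 2 - ρ * g x) ≤
      ∫ x in Ioi (0:ℝ), (hfun x ^ 2 - ρ * hfun x) := by
    refine integral_mono_ae ((integrable_g2 hS hφ r).sub ((integrable_g hS hφ r).const_mul ρ))
      (hhi2.sub (hhi1.const_mul ρ)) ?_
    filter_upwards [ae_restrict_mem measurableSet_Ioi,
      ae_restrict_of_ae ((Set.countable_singleton x0).ae_notMem volume)] with x hx hne
    exact hpt x hx (by simpa using hne)
  rw [integral_sub (integrable_g2 hS hφ r) ((integrable_g hS hφ r).const_mul ρ),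
    integral_sub hhi2 (hhi1.const_mul ρ), integral_const_mul, integral_const_mul] at hle
  have e1 : ∫ x in Ioi (0:ℝ), hfun x = κ⁻¹ * U S φ r' := by
    rw [hh, integral_comp_mul_left_Ioi (gfun S φ r') 0 hκ0]
    simp [U]
  have e2 : ∫ x in Ioi (0:ℝ), hfun x ^ 2 = κ⁻¹ * Q S φ r' := by
    rw [hh, integral_comp_mul_left_Ioi (fun y => gfun S φ r' y ^ 2) 0 hκ0]
    simp [Q]
  rw [e1, e2] at hle
  change Q S φ r - ρ * U S φ r ≤ κ⁻¹ * Q S φ r' - ρ * (κ⁻¹ * U S φ r') at hle
  rw [hQρ, sub_self] at hle
  have hk : 0 ≤ κ⁻¹ * (Q S φ r' - ρ * U S φ r') := by linarith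
  have := nonneg_of_mul_nonneg_right hk (inv_pos.2 hκ0)
  rw [hQρ]
  nlinarith

end Vale.Agent.P254.Orlicz
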