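import Vale.Agent.P254.Orlicz.Defs

/-!
Basic facts on the sublevel volumes `S ψ r`, including slicing along one coordinate.
-/

open MeasureTheory Set

namespace Vale.Agent.P254.Orlicz

variable {n : ℕ}

lemma Young.nonneg {ψ : ℝ → ℝ} (h : Young ψ) {x : ℝ} (hx : 0 ≤ x) : 0 ≤ ψ x := by
  rw [← h.zero]
  exact h.mono hx

/-- Inner pair versus outer pair for a monotone convex function. -/
lemma Young.quad {ψ : ℝ → ℝ} (h : Young ψ) {a b c d : ℝ} (hab : a ≤ b) (hac : a ≤ c)
    (hbd : b ≤ d) (hcd : c ≤ d) (hsum : b + c ≤ a + d) : ψ b + ψ c ≤ ψ a + ψ d := by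
  rcases eq_or_lt_of_le (hab.trans hbd) with had | had
  · have : b = a := by linarith
    have : c = d := by linarith
    subst_vars
    linarith [h.mono hac]
  · have key : ∀ x, a ≤ x → x ≤ d → (d - a) * ψ x ≤ (d - x) * ψ a + (x - a) * ψ d := by
      intro x h1 h2
      have hx := h.convex.2 (mem_univ a) (mem_univ d)
        (show (0:ℝ) ≤ (d - x) / (d - a) from div_nonneg (by linarith) (by linarith))
        (show (0:ℝ) ≤ (x - a) / (d - a) from div_nonneg (by linarith) (by linarith))
        (by field_simp; ring)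
      simp only [smul_eq_mul] at hx
      have he : (d - x) / (d - a) * a + (x - a) / (d - a) * d = x := by
        field_simp; ring
      rw [he] at hx
      have := mul_le_mul_of_nonneg_left hx (le_of_lt (sub_pos.2 had))
      refine this.trans (le_of_eq ?_)
      field_simp
    have k1 := key b hab hbd
    have k2 := key c hac hcd
    have hm : ψ a ≤ ψ d := h.mono had.le
    have : (d - a) * (ψ b + ψ c) ≤ (d - a) * (ψ a + ψ d) := by nlinarith
    exact le_of_mul_le_mul_left this (sub_pos.2 had)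

lemma isClosed_body {ψ : Fin n → ℝ → ℝ} (hψ : ∀ i, Young (ψ i)) (r : ℝ) :
    IsClosed (body ψ r) := by
  have h1 : IsClosed {y : Fin n → ℝ | ∀ i, 0 ≤ y i} := by
    simp only [ofPred_forall]
    exact isClosed_iInter fun i => isClosed_le continuous_const (continuous_apply i)
  exact h1.inter (isClosed_le (continuous_finsetSum _ fun i _ =>
    (hψ i).cont.comp (continuous_apply i)) continuous_const)

lemma exists_box {ψ : Fin n → ℝ → ℝ} (hψ : ∀ i, Young (ψ i)) (r : ℝ) :
    ∃ a : Fin n → ℝ, body ψ r ⊆ Icc 0 a := by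
  choose a ha hra using fun i => (hψ i).unb r
  refine ⟨a, fun y hy => ⟨fun i => hy.1 i, fun i => ?_⟩⟩
  by_contra hc
  rw [not_le] at hc
  have h1 : r < ψ i (y i) := lt_of_lt_of_le (hra i) ((hψ i).mono hc.le)
  have h2 : ψ i (y i) ≤ ∑ j, ψ j (y j) :=
    Finset.single_le_sum (fun j _ => (hψ j).nonneg (hy.1 j)) (Finset.mem_univ i)
  linarith [hy.2]

lemma isCompact_body {ψ : Fin n → ℝ → ℝ} (hψ : ∀ i, Young (ψ i)) (r : ℝ) :
    IsCompact (body ψ r) := by
  obtain ⟨a, ha⟩ := exists_box hψ r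
  exact (isCompact_Icc).of_isClosed_subset (isClosed_body hψ r) ha

lemma body_mono (ψ : Fin n → ℝ → ℝ) {r r' : ℝ} (h : r ≤ r') : body ψ r ⊆ body ψ r' :=
  fun _ hy => ⟨hy.1, hy.2.trans h⟩

lemma body_eq_empty {ψ : Fin n → ℝ → ℝ} (hψ : ∀ i, Young (ψ i)) {r : ℝ} (hr : r < 0) :
    body ψ r = ∅ := by
  ext y
  simp only [body, mem_ofPred_eq, mem_empty_iff_false, iff_false, not_and, not_le]
  intro hy
  exact hr.trans_le (Finset.sum_nonneg fun i _ => (hψ i).nonneg (hy i))

lemma S_nonneg (ψ : Fin n → ℝ → ℝ) (r : ℝ) : 0 ≤ S ψ r := measureReal_nonneg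

lemma S_mono {ψ : Fin n → ℝ → ℝ} (hψ : ∀ i, Young (ψ i)) : Monotone (S ψ) := fun _ _ h =>
  measureReal_mono (body_mono ψ h) (isCompact_body hψ _).measure_lt_top.ne

lemma S_neg {ψ : Fin n → ℝ → ℝ} (hψ : ∀ i, Young (ψ i)) {r : ℝ} (hr : r < 0) : S ψ r = 0 := by
  simp [S, body_eq_empty hψ hr]

lemma S_zero_dim (ψ : Fin 0 → ℝ → ℝ) {r : ℝ} (hr : 0 ≤ r) : S ψ r = 1 := by
  have : body ψ r = univ := by
    ext y; simp [body, hr]
  simp [S, this, Measure.real, volume_pi]

lemma S_pos {ψ : Fin n → ℝ → ℝ} (hψ : ∀ i, Young (ψ i)) {r : ℝ} (hr : 0 < r) : 0 < S ψ r := by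
  have hn : (0 : ℝ) < n + 1 := by positivity
  have hev : ∀ i, ∃ e, 0 < e ∧ ψ i e ≤ r / (n + 1) := by
    intro i
    have hc : Filter.Tendsto (ψ i) (nhdsWithin 0 (Ioi 0)) (nhds 0) := by
      have := ((hψ i).cont.tendsto 0).mono_left (nhdsWithin_le_nhds (s := Ioi (0 : ℝ)))
      rwa [(hψ i).zero] at this
    have h2 := (hc.eventually (eventually_le_nhds (show (0:ℝ) < r / (n + 1) by positivity))).and
      self_mem_nhdsWithin
    obtain ⟨e, he, he0⟩ := h2.exists
    exact ⟨e, he0, he⟩
  choose e he0 he using hev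
  have hsub : Icc 0 e ⊆ body ψ r := by
    intro y hy
    refine ⟨fun i => hy.1 i, ?_⟩
    calc ∑ i, ψ i (y i) ≤ ∑ _i : Fin n, r / (n + 1) :=
          Finset.sum_le_sum fun i _ => ((hψ i).mono (hy.2 i)).trans (he i)
      _ = n * (r / (n + 1)) := by simp
      _ ≤ r := by
          rw [mul_div_assoc']
          rw [div_le_iff₀ hn]
          nlinarith
  refine lt_of_lt_of_le ?_ (measureReal_mono hsub (isCompact_body hψ r).measure_lt_top.ne)
  rw [Measure.real, Real.volume_Icc_pi_toReal (show (0 : Fin n → ℝ) ≤ e from fun i => (he0 i).le)]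
  exact Finset.prod_pos fun i _ => by simpa using he0 i

lemma integrableOn_body {ψ : Fin n → ℝ → ℝ} (hψ : ∀ i, Young (ψ i)) (r : ℝ)
    {F : (Fin n → ℝ) → ℝ} (hF : Continuous F) : IntegrableOn F (body ψ r) :=
  hF.continuousOn.integrableOn_compact (isCompact_body hψ r)

/-- Slicing of an integral over a body along the coordinate `i`. -/
theorem integral_slice {ψ : Fin (n + 1) → ℝ → ℝ} (hψ : ∀ i, Young (ψ i)) (i : Fin (n + 1))
    (r : ℝ) {F : (Fin (n + 1) → ℝ) → ℝ} (hF : Continuous F) :
    ∫ y in body ψ r, F y =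
      ∫ x in Ioi (0:ℝ), ∫ z in body (fun j => ψ (i.succAbove j)) (r - ψ i x),
        F (Fin.insertNth i x z) := by
  set e := MeasurableEquiv.piFinSuccAbove (fun _ : Fin (n + 1) => ℝ) i with hedef
  have hm := (volume_preserving_piFinSuccAbove (fun _ : Fin (n + 1) => ℝ) i).symm e
  set G : (Fin (n + 1) → ℝ) → ℝ := (body ψ r).indicator F with hG
  have hGi : Integrable G := (integrableOn_body hψ r hF).integrable_indicator
    (isCompact_body hψ r).measurableSet
  have he : ∀ p : ℝ × (Fin n → ℝ), e.symm p = Fin.insertNth i p.1 p.2 := fun p => rfl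
  have hprod : Integrable (fun p => G (e.symm p)) (volume.prod volume) := by
    have := hm.integrable_comp_emb e.symm.measurableEmbedding (g := G)
    exact this.2 hGi
  rw [← integral_indicator (isCompact_body hψ r).measurableSet, ← hG,
    ← hm.integral_comp e.symm.measurableEmbedding G]
  rw [Measure.volume_eq_prod, integral_prod _ hprod, ← integral_Ici_eq_integral_Ioi,
    ← integral_indicator measurableSet_Ici]
  refine integral_congr_ae (Filter.Eventually.of_forall fun x => ?_)
  by_cases hx : 0 ≤ x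
  · rw [indicator_of_mem (show x ∈ Ici (0:ℝ) from hx),
      ← integral_indicator (isCompact_body (fun j => hψ _) _).measurableSet]
    refine integral_congr_ae (Filter.Eventually.of_forall fun z => ?_)
    simp only [he, hG]
    have hiff : Fin.insertNth i x z ∈ body ψ r ↔
        z ∈ body (fun j => ψ (i.succAbove j)) (r - ψ i x) := by
      simp only [body, mem_ofPred_eq, Fin.forall_iff_succAbove i, Fin.sum_univ_succAbove _ i,
        Fin.insertNth_apply_same, Fin.insertNth_apply_succAbove]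
      constructor
      · exact fun h => ⟨h.1.2, by linarith [h.2]⟩
      · exact fun h => ⟨⟨hx, h.1⟩, by linarith [h.2]⟩
    by_cases hz : z ∈ body (fun j => ψ (i.succAbove j)) (r - ψ i x)
    · rw [indicator_of_mem hz, indicator_of_mem (hiff.2 hz)]
    · rw [indicator_of_notMem hz, indicator_of_notMem (fun h => hz (hiff.1 h))]
  · rw [indicator_of_notMem (show x ∉ Ici (0:ℝ) from hx)]
    show (∫ z, G (e.symm (x, z))) = 0
    rw [integral_eq_zero_of_ae]
    refine Filter.Eventually.of_forall fun z => ?_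
    simp only [he, hG, Pi.zero_apply]
    refine indicator_of_notMem (fun h => hx ?_) _
    simpa using h.1 i

theorem S_succ {ψ : Fin (n + 1) → ℝ → ℝ} (hψ : ∀ i, Young (ψ i)) (i : Fin (n + 1)) (r : ℝ) :
    S ψ r = ∫ x in Ioi (0:ℝ), S (fun j => ψ (i.succAbove j)) (r - ψ i x) := by
  have := integral_slice hψ i r (F := fun _ => (1:ℝ)) continuous_const
  simpa [S] using this

theorem moment_slice {ψ : Fin (n + 1) → ℝ → ℝ} (hψ : ∀ i, Young (ψ i)) (i : Fin (n + 1)) (r : ℝ)
    {h : ℝ → ℝ} (hh : Continuous h) :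
    ∫ y in body ψ r, h (y i) =
      ∫ x in Ioi (0:ℝ), h x * S (fun j => ψ (i.succAbove j)) (r - ψ i x) := by
  rw [integral_slice hψ i r (F := fun y => h (y i)) (hh.comp (continuous_apply i))]
  refine integral_congr_ae (Filter.Eventually.of_forall fun x => ?_)
  simp [S, mul_comm]

end Vale.Agent.P254.Orlicz
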