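import Mathlib

/-!
Definitions for the isotropic constant of generalised Orlicz balls.
-/

open MeasureTheory Set

namespace Vale.Agent.P254

/-- Barycentre of a set in `Fin n → ℝ`. -/
noncomputable def bary {n : ℕ} (K : Set (Fin n → ℝ)) (i : Fin n) : ℝ :=
  (volume.real K)⁻¹ * ∫ x in K, x i

/-- Covariance matrix of the uniform law on a set in `Fin n → ℝ`. -/
noncomputable def cov {n : ℕ} (K : Set (Fin n → ℝ)) : Matrix (Fin n) (Fin n) ℝ :=
  Matrix.of fun i j => (volume.real K)⁻¹ * ∫ x in K, (x i - bary K i) * (x j - bary K j)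

/-- The isotropic constant `(det Σ_K / |K|^2)^(1/(2n))`. -/
noncomputable def isoConst {n : ℕ} (K : Set (Fin n → ℝ)) : ℝ :=
  ((cov K).det / (volume.real K) ^ 2) ^ (1 / (2 * n) : ℝ)

/-- The generalised Orlicz ball of a family of functions. -/
def orliczBall {n : ℕ} (φ : Fin n → ℝ → ℝ) : Set (Fin n → ℝ) :=
  {x | ∑ i, φ i |x i| ≤ 1}

/-- The standard simplex with vertices `0, e_1, …, e_n`. -/
def cornerSimplex (n : ℕ) : Set (Fin n → ℝ) :=
  {x | (∀ i, 0 ≤ x i) ∧ ∑ i, x i ≤ 1}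

namespace Orlicz

/-- A convex monotone function on the line, zero at the origin and unbounded above. -/
structure Young (ψ : ℝ → ℝ) : Prop where
  convex : ConvexOn ℝ univ ψ
  mono : Monotone ψ
  zero : ψ 0 = 0
  cont : Continuous ψ
  unb : ∀ r, ∃ x, 0 < x ∧ r < ψ x

/-- The part in the closed positive orthant of the sublevel set at level `r`. -/
def body {n : ℕ} (ψ : Fin n → ℝ → ℝ) (r : ℝ) : Set (Fin n → ℝ) :=
  {y | (∀ i, 0 ≤ y i) ∧ ∑ i, ψ i (y i) ≤ r}

/-- The volume of `body ψ r`. -/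
noncomputable def S {n : ℕ} (ψ : Fin n → ℝ → ℝ) (r : ℝ) : ℝ := volume.real (body ψ r)

end Orlicz

end Vale.Agent.P254
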