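import Vale.Agent.P254.Orlicz.Product

/-!
Second moment against first moment for the marginal of a generalised Orlicz ball.
-/

open MeasureTheory Set

namespace Vale.Agent.P254.Orlicz

/-- Integrals of truncated powers of a linear function. -/
lemma integral_ramp {a : ℝ} (ha : 0 < a) {k : ℕ} (hk : k ≠ 0) (j : ℕ) :
    ∫ x in Ioi (0:ℝ), x ^ j * (max (1 - x / a) 0) ^ k =
      a * ∫ v in (0:ℝ)..1, (a * (1 - v)) ^ j * v ^ k := by
  have h1 : ∫ x in Ioi (0:ℝ), x ^ j * (max (1 - x / a) 0) ^ k =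
      ∫ x in Ioc (0:ℝ) a, x ^ j * (max (1 - x / a) 0) ^ k := by
    refine setIntegral_eq_of_subset_of_forall_sdiff_eq_zero measurableSet_Ioi Ioc_subset_Ioi_self
      fun x hx => ?_
    have hax : a < x := by
      by_contra hc
      exact hx.2 ⟨hx.1, not_lt.1 hc⟩
    have hneg : 1 - x / a ≤ 0 := by rw [sub_nonpos, le_div_iff₀ ha]; linarith
    simp [max_eq_right hneg, zero_pow hk]
  have h2 : ∫ x in (0:ℝ)..a, x ^ j * (max (1 - x / a) 0) ^ k =
      ∫ x in (0:ℝ)..a, (fun v => (a * (1 - v)) ^ j * v ^ k) (1 - x / a) := by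
    refine intervalIntegral.integral_congr fun x hx => ?_
    rw [uIcc_of_le ha.le] at hx
    have hnn : 0 ≤ 1 - x / a := by rw [sub_nonneg, div_le_one ha]; exact hx.2
    simp only [max_eq_left hnn]
    congr 2
    field_simp
    ring
  rw [h1, ← intervalIntegral.integral_of_le ha.le, h2,
    intervalIntegral.integral_comp_sub_div (fun v => (a * (1 - v)) ^ j * v ^ k) ha.ne' 1]
  simp [div_self ha.ne']

lemma ramp_zero {a : ℝ} (ha : 0 < a) {k : ℕ} (hk : k ≠ 0) :
    ∫ x in Ioi (0:ℝ), (max (1 - x / a) 0) ^ k = a / (k + 1) := by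
  have h := integral_ramp ha hk 0
  simp only [pow_zero, one_mul, integral_pow] at h
  rw [h]
  simp [zero_pow (Nat.succ_ne_zero k), div_eq_mul_inv]

lemma ramp_one {a : ℝ} (ha : 0 < a) {k : ℕ} (hk : k ≠ 0) :
    ∫ x in Ioi (0:ℝ), x * (max (1 - x / a) 0) ^ k = a ^ 2 / ((k + 1) * (k + 2)) := by
  have h := integral_ramp ha hk 1
  simp only [pow_one] at h
  have he : ∀ v : ℝ, a * (1 - v) * v ^ k = a * v ^ k - a * v ^ (k + 1) := fun v => by ring
  simp only [he] at h
  rw [h, intervalIntegral.integral_sub (Continuous.intervalIntegrable (by fun_prop) _ _)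
    (Continuous.intervalIntegrable (by fun_prop) _ _), intervalIntegral.integral_const_mul,
    intervalIntegral.integral_const_mul, integral_pow, integral_pow]
  simp only [one_pow, zero_pow (Nat.succ_ne_zero _), sub_zero]
  push_cast
  have h1 : (k:ℝ) + 1 ≠ 0 := by positivity
  have h2 : (k:ℝ) + 1 + 1 ≠ 0 := by positivity
  field_simp
  ring

lemma ramp_two {a : ℝ} (ha : 0 < a) {k : ℕ} (hk : k ≠ 0) :
    ∫ x in Ioi (0:ℝ), x ^ 2 * (max (1 - x / a) 0) ^ k =
      2 * a ^ 3 / ((k + 1) * (k + 2) * (k + 3)) := by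
  have h := integral_ramp ha hk 2
  have he : ∀ v : ℝ, (a * (1 - v)) ^ 2 * v ^ k =
      a ^ 2 * v ^ k - (2 * a ^ 2 * v ^ (k + 1) - a ^ 2 * v ^ (k + 2)) := fun v => by ring
  simp only [he] at h
  rw [h, intervalIntegral.integral_sub (Continuous.intervalIntegrable (by fun_prop) _ _)
    (Continuous.intervalIntegrable (by fun_prop) _ _),
    intervalIntegral.integral_sub (Continuous.intervalIntegrable (by fun_prop) _ _)
    (Continuous.intervalIntegrable (by fun_prop) _ _), intervalIntegral.integral_const_mul,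
    intervalIntegral.integral_const_mul, intervalIntegral.integral_const_mul,
    integral_pow, integral_pow, integral_pow]
  simp only [one_pow, zero_pow (Nat.succ_ne_zero _), sub_zero]
  push_cast
  have h1 : (k:ℝ) + 1 ≠ 0 := by positivity
  have h2 : (k:ℝ) + 1 + 1 ≠ 0 := by positivity
  have h3 : (k:ℝ) + 2 + 1 ≠ 0 := by positivity
  field_simp
  ring

/-- Berwald's second moment bound for the marginal at level `1`. -/
theorem second_moment_le {m : ℕ} {ψ : Fin (m + 2) → ℝ → ℝ} (hψ : ∀ i, Young (ψ i))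
    (i : Fin (m + 2)) :
    (∫ y in body ψ 1, y i ^ 2) * S ψ 1 ≤
      2 * ((m:ℝ) + 3) / ((m:ℝ) + 4) * N ψ i 1 ^ 2 := by
  set tl : Fin (m + 1) → ℝ → ℝ := fun j => ψ (i.succAbove j) with htl
  have htly : ∀ j, Young (tl j) := fun j => hψ _
  have hφ : Young (ψ i) := hψ i
  have hG : Good (S tl) := good htly
  obtain ⟨k, hk⟩ : ∃ k : ℕ, k = m + 1 := ⟨_, rfl⟩
  have hk0 : k ≠ 0 := hk ▸ Nat.succ_ne_zero m
  obtain ⟨H, hmono, hnn, hconc, hH⟩ := hasRoot htly
  replace hH : ∀ r, 0 ≤ r → S tl r = H r ^ k := fun r hr => by rw [hH r hr, hk]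
  set f : ℝ → ℝ := gfun (S tl) (ψ i) 1 with hf
  have eV : S ψ 1 = ∫ x in Ioi (0:ℝ), f x := S_succ hψ i 1
  have eM : N ψ i 1 = ∫ x in Ioi (0:ℝ), x * f x := moment_slice hψ i 1 (h := fun x => x) continuous_id
  have e2 : ∫ y in body ψ 1, y i ^ 2 = ∫ x in Ioi (0:ℝ), x ^ 2 * f x :=
    moment_slice hψ i 1 (h := fun x => x ^ 2) (continuous_pow 2)
  set V := S ψ 1 with hV
  set M1 := N ψ i 1 with hM1
  have hV0 : 0 < V := S_pos hψ one_pos
  have hf_nn : ∀ x, 0 ≤ f x := fun x => gfun_nonneg hG 1 x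
  obtain ⟨A, hA0, hA⟩ := gfun_eq_zero hG hφ 1
  have hfi : IntegrableOn f (Ioi 0) := integrable_g hG hφ 1
  have hfxi : IntegrableOn (fun x => x * f x) (Ioi 0) := integrable_xg hG hφ 1
  have hfx2i : IntegrableOn (fun x => x ^ 2 * f x) (Ioi 0) := by
    refine integrable_of_bound (a := A) (C := A ^ 2 * f 0)
      ((measurable_id.pow_const 2).mul (gfun_anti hG hφ 1).measurable)
      (fun x hx => by simp [hf, hA x hx]) fun x hx => ?_
    rw [abs_of_nonneg (mul_nonneg (sq_nonneg _) (hf_nn x))]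
    exact mul_le_mul (pow_le_pow_left₀ hx.1.le hx.2 2) (gfun_anti hG hφ 1 hx.1.le) (hf_nn x)
      (sq_nonneg _)
  have hM0 : 0 < M1 := by
    rw [eM]
    rcases (setIntegral_nonneg measurableSet_Ioi fun x (hx : x ∈ Ioi (0:ℝ)) =>
      mul_nonneg (le_of_lt hx) (hf_nn x)).eq_or_lt with h | h
    · exfalso
      have hz := (setIntegral_eq_zero_iff_of_nonneg_ae ?_ hfxi).1 h.symm
      · refine hV0.ne' (eV.trans (integral_eq_zero_of_ae ?_))
        filter_upwards [hz, ae_restrict_mem measurableSet_Ioi] with x hx hxm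
        simp only [Pi.zero_apply, mul_eq_zero] at hx ⊢
        exact hx.resolve_left (ne_of_gt hxm)
      · exact (ae_restrict_iff' measurableSet_Ioi).2 (Filter.Eventually.of_forall fun x hx =>
          mul_nonneg (le_of_lt hx) (hf_nn x))
    · exact h
  -- the comparison function
  set a : ℝ := ((k:ℝ) + 2) * M1 / V with ha
  have ha0 : 0 < a := by positivity
  set β : ℝ := (V * ((k:ℝ) + 1) / a) ^ ((k:ℕ):ℝ)⁻¹ with hβ
  have hβk : β ^ k = V * ((k:ℝ) + 1) / a :=
    Real.rpow_inv_natCast_pow (by positivity) hk0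
  have hβ0 : 0 ≤ β := Real.rpow_nonneg (by positivity) _
  set l : ℝ → ℝ := fun x => β * max (1 - x / a) 0 with hl
  set f0 : ℝ → ℝ := fun x => l x ^ k with hf0
  have hf0' : ∀ x, f0 x = β ^ k * (max (1 - x / a) 0) ^ k := fun x => by
    simp [hf0, hl, mul_pow]
  have i0 : ∫ x in Ioi (0:ℝ), f0 x = V := by
    simp only [hf0']
    rw [integral_const_mul, ramp_zero ha0 hk0, hβk]
    field_simp
  have i1 : ∫ x in Ioi (0:ℝ), x * f0 x = M1 := by
    simp only [hf0', mul_left_comm _ (β ^ k)]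
    rw [integral_const_mul, ramp_one ha0 hk0, hβk, ha]
    field_simp
  have i2 : ∫ x in Ioi (0:ℝ), x ^ 2 * f0 x =
      2 * ((k:ℝ) + 2) / ((k:ℝ) + 3) * M1 ^ 2 / V := by
    simp only [hf0', mul_left_comm _ (β ^ k)]
    rw [integral_const_mul, ramp_two ha0 hk0, hβk, ha]
    field_simp
  have hl_nn : ∀ x, 0 ≤ l x := fun x => mul_nonneg hβ0 (le_max_right _ _)
  have hlc : ConvexOn ℝ univ l := by
    have h1 : ConvexOn ℝ univ (fun x : ℝ => max (1 - x / a) 0) := by
      refine ConvexOn.sup ⟨convex_univ, fun x _ y _ s t _ _ hst => le_of_eq ?_⟩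
        (convexOn_const 0 convex_univ)
      simp only [smul_eq_mul]
      field_simp
      linear_combination (-a) * hst
    simpa [hl, smul_eq_mul, Pi.smul_apply] using h1.smul hβ0
  have hcmp : ∀ x, f0 x < f x → ψ i x ≤ 1 ∧ l x < H (1 - ψ i x) := by
    intro x hx
    have hle : ψ i x ≤ 1 := by
      by_contra hc
      have : f x = 0 := hG.neg _ (by linarith)
      have : 0 ≤ f0 x := pow_nonneg (hl_nn x) _
      linarith
    refine ⟨hle, ?_⟩
    rw [hf, gfun, hH _ (sub_nonneg.2 hle)] at hx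
    exact lt_of_pow_lt_pow_left₀ _ (hnn _) hx
  set D : Set ℝ := {x | 0 < x ∧ f0 x < f x} with hD
  have hconn : ∀ x y z, x ∈ D → z ∈ D → x < y → y < z → y ∈ D := by
    intro x y z hx hz hxy hyz
    obtain ⟨hx1, hx2⟩ := hcmp x hx.2
    obtain ⟨hz1, hz2⟩ := hcmp z hz.2
    refine ⟨hx.1.trans hxy, ?_⟩
    have hy1 : ψ i y ≤ 1 := (hφ.mono hyz.le).trans hz1
    rw [hf, gfun, hH _ (sub_nonneg.2 hy1)]
    refine pow_lt_pow_left₀ ?_ (hl_nn y) hk0
    set s := (z - y) / (z - x) with hs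
    have hzx : 0 < z - x := by linarith
    have hs0 : 0 < s := div_pos (by linarith) hzx
    have hs1 : s < 1 := by rw [hs, div_lt_one hzx]; linarith
    have hy : s * x + (1 - s) * z = y := by rw [hs]; field_simp; ring
    have h1 := hlc.2 (mem_univ x) (mem_univ z) hs0.le (sub_pos.2 hs1).le (by ring)
    have h2 := hφ.convex.2 (mem_univ x) (mem_univ z) hs0.le (sub_pos.2 hs1).le (by ring)
    have h3 := hconc.2 (show 1 - ψ i x ∈ Ici (0:ℝ) from sub_nonneg.2 hx1)
      (show 1 - ψ i z ∈ Ici (0:ℝ) from sub_nonneg.2 hz1) hs0.le (sub_pos.2 hs1).le (by ring)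
    simp only [smul_eq_mul] at h1 h2 h3
    rw [hy] at h1 h2
    have h4 : H (s * (1 - ψ i x) + (1 - s) * (1 - ψ i z)) ≤ H (1 - ψ i y) := hmono (by linarith)
    nlinarith [mul_lt_mul_of_pos_left hx2 hs0, mul_lt_mul_of_pos_left hz2 (sub_pos.2 hs1)]
  have hf0i : IntegrableOn f0 (Ioi 0) := by
    refine integrable_of_bound (a := a) (C := β ^ k) (by fun_prop) (fun x hx => ?_) fun x hx => ?_
    · have : 1 - x / a ≤ 0 := by rw [sub_nonpos, le_div_iff₀ ha0]; linarith
      simp [hf0', max_eq_right this, zero_pow hk0]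
    · rw [abs_of_nonneg (pow_nonneg (hl_nn x) _)]
      simp only [hl, mul_pow]
      refine mul_le_of_le_one_right (pow_nonneg hβ0 _) (pow_le_one₀ (le_max_right _ _) ?_)
      exact max_le (by have := div_nonneg hx.1.le ha0.le; linarith) zero_le_one
  have hf0xi : ∀ j : ℕ, IntegrableOn (fun x => x ^ j * f0 x) (Ioi 0) := fun j => by
    refine integrable_of_bound (a := a) (C := a ^ j * β ^ k) (by fun_prop) (fun x hx => ?_)
      fun x hx => ?_
    · have : 1 - x / a ≤ 0 := by rw [sub_nonpos, le_div_iff₀ ha0]; linarith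
      simp [hf0', max_eq_right this, zero_pow hk0]
    · rw [abs_of_nonneg (mul_nonneg (pow_nonneg hx.1.le _) (pow_nonneg (hl_nn x) _))]
      refine mul_le_mul (pow_le_pow_left₀ hx.1.le hx.2 _) ?_ (pow_nonneg (hl_nn x) _)
        (pow_nonneg ha0.le _)
      simp only [hl, mul_pow]
      refine mul_le_of_le_one_right (pow_nonneg hβ0 _) (pow_le_one₀ (le_max_right _ _) ?_)
      exact max_le (by have := div_nonneg hx.1.le ha0.le; linarith) zero_le_one
  -- the certificate
  obtain ⟨p, q, hpq⟩ : ∃ p q : ℝ, ∀ x, 0 < x → x ≠ p → x ≠ q →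
      0 ≤ (x - p) * (q - x) * (f x - f0 x) := by
    rcases D.eq_empty_or_nonempty with he | hne
    · refine ⟨0, 0, fun x hx _ _ => ?_⟩
      have hle : f x ≤ f0 x := by
        by_contra hc
        exact (eq_empty_iff_forall_notMem.1 he x) ⟨hx, not_le.1 hc⟩
      nlinarith [mul_nonneg (sq_nonneg x) (sub_nonneg.2 hle)]
    · have hDb : BddAbove D := ⟨A, fun x hx => by
        by_contra hc
        have h2 := hx.2
        rw [hf, hA x (not_le.1 hc)] at h2
        exact absurd h2 (not_lt.2 (pow_nonneg (hl_nn x) _))⟩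
      have hDl : BddBelow D := ⟨0, fun x hx => hx.1.le⟩
      refine ⟨sInf D, sSup D, fun x hx hxp hxq => ?_⟩
      by_cases hxD : x ∈ D
      · exact mul_nonneg (mul_nonneg (sub_nonneg.2 (csInf_le hDl hxD))
          (sub_nonneg.2 (le_csSup hDb hxD))) (sub_nonneg.2 hxD.2.le)
      · refine mul_nonneg_of_nonpos_of_nonpos ?_ (sub_nonpos.2 (not_lt.1 fun h => hxD ⟨hx, h⟩))
        rcases lt_or_ge x (sInf D) with h1 | h1
        · exact mul_nonpos_of_nonpos_of_nonneg (by linarith)
            (sub_nonneg.2 (le_trans h1.le ((csInf_le hDl hne.some_mem).trans (le_csSup hDb hne.some_mem))))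
        · rcases lt_or_ge (sSup D) x with h2 | h2
          · exact mul_nonpos_of_nonneg_of_nonpos (by linarith) (by linarith)
          · obtain ⟨u, hu, hux⟩ := exists_lt_of_csInf_lt hne (lt_of_le_of_ne h1 (Ne.symm hxp))
            obtain ⟨w, hw, hxw⟩ := exists_lt_of_lt_csSup hne (lt_of_le_of_ne h2 hxq)
            exact absurd (hconn u x w hu hw hux hxw) hxD
  have hI : 0 ≤ ∫ x in Ioi (0:ℝ), (x - p) * (q - x) * (f x - f0 x) := by
    refine integral_nonneg_of_ae ?_
    filter_upwards [ae_restrict_mem measurableSet_Ioi,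
      ae_restrict_of_ae ((Set.toFinite {p, q}).countable.ae_notMem volume)] with x hx hne
    simp only [mem_insert_iff, mem_singleton_iff, not_or] at hne
    exact hpq x hx hne.1 hne.2
  have hexp : ∀ x, (x - p) * (q - x) * (f x - f0 x) =
      (p + q) * (x * f x - x * f0 x) - p * q * (f x - f0 x) - (x ^ 2 * f x - x ^ 2 * f0 x) :=
    fun x => by ring
  simp only [hexp] at hI
  have j1 : IntegrableOn (fun x => x * f0 x) (Ioi 0) := by simpa using hf0xi 1
  have k1 : Integrable (fun x => x * f x - x * f0 x) (volume.restrict (Ioi 0)) := hfxi.sub j1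
  have k0 : Integrable (fun x => f x - f0 x) (volume.restrict (Ioi 0)) := hfi.sub hf0i
  have k2 : Integrable (fun x => x ^ 2 * f x - x ^ 2 * f0 x) (volume.restrict (Ioi 0)) :=
    hfx2i.sub (hf0xi 2)
  have k10 : Integrable (fun x => (p + q) * (x * f x - x * f0 x) - p * q * (f x - f0 x))
      (volume.restrict (Ioi 0)) := (k1.const_mul _).sub (k0.const_mul _)
  rw [integral_sub k10 k2, integral_sub (k1.const_mul _) (k0.const_mul _), integral_const_mul,
    integral_const_mul, integral_sub hfxi j1, integral_sub hfi hf0i,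
    integral_sub hfx2i (hf0xi 2), ← eM, ← eV, i0, i1, i2, ← e2] at hI
  simp only [sub_self, mul_zero, zero_sub, neg_nonneg, sub_nonpos] at hI
  rw [le_div_iff₀ hV0] at hI
  refine hI.trans (le_of_eq ?_)
  have hkm : (k:ℝ) = (m:ℝ) + 1 := by simp [hk]
  rw [hkm]
  ring

end Vale.Agent.P254.Orlicz
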