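import Vale.Agent.P254.Orlicz.Root

/-!
The product inequality `2^n * ∏ ∫ y_i ≤ vol^(n+1)` for `body ψ 1`.
-/

open MeasureTheory Set

namespace Vale.Agent.P254.Orlicz

variable {n : ℕ}

/-- The moment of the coordinate `i` over `body ψ r`. -/
noncomputable def N (ψ : Fin n → ℝ → ℝ) (i : Fin n) (r : ℝ) : ℝ := ∫ y in body ψ r, y i

lemma N_mono {ψ : Fin n → ℝ → ℝ} (hψ : ∀ i, Young (ψ i)) (i : Fin n) : Monotone (N ψ i) :=
  fun r r' h => setIntegral_mono_set (integrableOn_body hψ r' (continuous_apply i))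
    ((ae_restrict_iff' (isCompact_body hψ r').measurableSet).2
      (Filter.Eventually.of_forall fun y hy => hy.1 i))
    (Filter.Eventually.of_forall (body_mono ψ h))

lemma N_nonneg {ψ : Fin n → ℝ → ℝ} (hψ : ∀ i, Young (ψ i)) (i : Fin n) (r : ℝ) : 0 ≤ N ψ i r :=
  setIntegral_nonneg (isCompact_body hψ r).measurableSet fun y hy => hy.1 i

lemma N_neg {ψ : Fin n → ℝ → ℝ} (hψ : ∀ i, Young (ψ i)) (i : Fin n) {r : ℝ} (hr : r < 0) :
    N ψ i r = 0 := by simp [N, body_eq_empty hψ hr]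

lemma integrable_of_monotone {μ : Measure ℝ} [IsFiniteMeasure μ] {f : ℝ → ℝ} {R : ℝ}
    (hμ : ∀ᵐ r ∂μ, r ≤ R) (hf : Monotone f) (h0 : ∀ r, 0 ≤ f r) : Integrable f μ := by
  refine Integrable.of_bound hf.measurable.aestronglyMeasurable (f R) ?_
  filter_upwards [hμ] with r hr
  rw [Real.norm_eq_abs, abs_of_nonneg (h0 r)]
  exact hf hr

/-- The pushforward weight after removing one coordinate. -/
noncomputable def nextMeasure (φ : ℝ → ℝ) (μ : Measure ℝ) (a : ℝ) : Measure ℝ :=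
  (μ.prod (volume.restrict (Ioc 0 a))).map fun p => p.1 - φ p.2

lemma nextMeasure_le {φ : ℝ → ℝ} (hφ : Young φ) {μ : Measure ℝ} [SFinite μ] {R a : ℝ}
    (hμ : ∀ᵐ r ∂μ, r ≤ R) : ∀ᵐ r ∂nextMeasure φ μ a, r ≤ R := by
  have hm : Measurable fun p : ℝ × ℝ => p.1 - φ p.2 :=
    measurable_fst.sub (hφ.cont.measurable.comp measurable_snd)
  rw [nextMeasure, ae_map_iff (p := fun r => r ≤ R) hm.aemeasurable measurableSet_Iic]
  have h1 : ∀ᵐ p ∂μ.prod (volume.restrict (Ioc (0:ℝ) a)), p.1 ≤ R :=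
    Measure.quasiMeasurePreserving_fst.ae hμ
  have h2 : ∀ᵐ p ∂μ.prod (volume.restrict (Ioc (0:ℝ) a)), p.2 ∈ Ioc (0:ℝ) a :=
    Measure.quasiMeasurePreserving_snd.ae (ae_restrict_mem measurableSet_Ioc)
  filter_upwards [h1, h2] with p hp hq
  linarith [hφ.nonneg hq.1.le]

lemma integral_nextMeasure {φ : ℝ → ℝ} (hφ : Young φ) {μ : Measure ℝ} [IsFiniteMeasure μ]
    {R a : ℝ} (hμ : ∀ᵐ r ∂μ, r ≤ R) (ha : R < φ a) {f : ℝ → ℝ} (hf : Monotone f)
    (h0 : ∀ r, 0 ≤ f r) (hneg : ∀ r, r < 0 → f r = 0) :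
    ∫ r, f r ∂nextMeasure φ μ a = ∫ r, (∫ x in Ioi (0:ℝ), f (r - φ x)) ∂μ := by
  have hm : Measurable fun p : ℝ × ℝ => p.1 - φ p.2 :=
    measurable_fst.sub (hφ.cont.measurable.comp measurable_snd)
  rw [nextMeasure, integral_map hm.aemeasurable hf.measurable.aestronglyMeasurable]
  rw [integral_prod]
  · refine integral_congr_ae ?_
    filter_upwards [hμ] with r hr
    refine (setIntegral_eq_of_subset_of_forall_sdiff_eq_zero measurableSet_Ioi
      Ioc_subset_Ioi_self fun x hx => ?_).symm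
    refine hneg _ ?_
    have : a < x := by
      by_contra hc
      exact hx.2 ⟨hx.1, not_lt.1 hc⟩
    have := hφ.mono this.le
    linarith
  · refine Integrable.of_bound (hf.measurable.comp hm).aestronglyMeasurable (f R) ?_
    have h1 : ∀ᵐ p ∂μ.prod (volume.restrict (Ioc (0:ℝ) a)), p.1 ≤ R :=
      Measure.quasiMeasurePreserving_fst.ae hμ
    have h2 : ∀ᵐ p ∂μ.prod (volume.restrict (Ioc (0:ℝ) a)), p.2 ∈ Ioc (0:ℝ) a :=
      Measure.quasiMeasurePreserving_snd.ae (ae_restrict_mem measurableSet_Ioc)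
    filter_upwards [h1, h2] with p hp hq
    rw [Real.norm_eq_abs, abs_of_nonneg (h0 _)]
    exact hf (by linarith [hφ.nonneg hq.1.le])

/-- The main induction: with `V`, `Q`, `M_i` the `μ`-averages of `S`, `S^2`, `N_i`,
one has `2^n (∏ M_i) V ≤ Q V^n`. -/
theorem product_weight {n : ℕ} : ∀ {ψ : Fin n → ℝ → ℝ}, (∀ i, Young (ψ i)) →
    ∀ (μ : Measure ℝ) [IsFiniteMeasure μ] (R : ℝ), (∀ᵐ r ∂μ, r ≤ R) →
      2 ^ n * (∏ i, ∫ r, N ψ i r ∂μ) * (∫ r, S ψ r ∂μ) ≤
        (∫ r, S ψ r ^ 2 ∂μ) * (∫ r, S ψ r ∂μ) ^ n := by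
  induction n with
  | zero =>
    intro ψ hψ μ _ R hR
    have : ∀ r, S ψ r ^ 2 = S ψ r := fun r => by
      rcases lt_or_ge r 0 with h | h
      · simp [S_neg hψ h]
      · simp [S_zero_dim ψ h]
    simp [this]
  | succ n ih =>
    intro ψ hψ μ _ R hR
    set tl : Fin n → ℝ → ℝ := fun j => ψ ((0 : Fin (n+1)).succAbove j) with htl
    have htly : ∀ j, Young (tl j) := fun j => hψ _
    have hG : Good (S tl) := good htly
    have hφ : Young (ψ 0) := hψ 0
    obtain ⟨a, -, ha⟩ := hφ.unb R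
    have hfin : IsFiniteMeasure (nextMeasure (ψ 0) μ a) := by
      unfold nextMeasure; infer_instance
    have hR' := nextMeasure_le (a := a) hφ hR
    have hIH := ih htly (nextMeasure (ψ 0) μ a) R hR'
    -- rewrite the new averages
    have hU : ∀ r, S ψ r = U (S tl) (ψ 0) r := fun r => S_succ hψ 0 r
    have eV : ∫ r, S tl r ∂nextMeasure (ψ 0) μ a = ∫ r, S ψ r ∂μ := by
      rw [integral_nextMeasure hφ hR ha (S_mono htly) (S_nonneg tl) (fun r h => S_neg htly h)]
      exact integral_congr_ae (Filter.Eventually.of_forall fun r => (hU r).symm)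
    have eQ : ∫ r, S tl r ^ 2 ∂nextMeasure (ψ 0) μ a = ∫ r, Q (S tl) (ψ 0) r ∂μ := by
      rw [integral_nextMeasure hφ hR ha (f := fun r => S tl r ^ 2)
        (fun r r' h => pow_le_pow_left₀ (S_nonneg tl r) (S_mono htly h) 2)
        (fun r => sq_nonneg _) (fun r h => by simp [S_neg htly h])]
      rfl
    have eN : ∀ j : Fin n, ∫ r, N tl j r ∂nextMeasure (ψ 0) μ a = ∫ r, N ψ j.succ r ∂μ := by
      intro j
      rw [integral_nextMeasure hφ hR ha (N_mono htly j) (N_nonneg htly j)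
        (fun r h => N_neg htly j h)]
      refine integral_congr_ae (Filter.Eventually.of_forall fun r => ?_)
      show _ = ∫ y in body ψ r, y j.succ
      rw [integral_slice hψ 0 r (continuous_apply _)]
      simp [N, htl]
    have eM : ∀ r, N ψ 0 r = M (S tl) (ψ 0) r := fun r =>
      moment_slice hψ 0 r (h := fun x => x) continuous_id
    rw [eV, eQ, Finset.prod_congr rfl fun j _ => eN j] at hIH
    set V := ∫ r, S ψ r ∂μ with hV
    set M0 := ∫ r, N ψ 0 r ∂μ with hM0
    set Q' := ∫ r, Q (S tl) (ψ 0) r ∂μ with hQ'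
    have hVn : 0 ≤ V := integral_nonneg (S_nonneg ψ)
    have hM0n : 0 ≤ M0 := integral_nonneg (N_nonneg hψ 0)
    -- the step inequality
    have hstep : 2 * M0 * Q' ≤ (∫ r, S ψ r ^ 2 ∂μ) * V := by
      set c : ℝ → ℝ := fun r => M (S tl) (ψ 0) r / U (S tl) (ψ 0) r with hc
      set ρ : ℝ → ℝ := fun r => Q (S tl) (ψ 0) r / U (S tl) (ψ 0) r with hρ
      have hU0 := fun r => U_nonneg (φ := ψ 0) hG r
      have cmono : Monotone c := by
        intro r r' h
        rcases (hU0 r).eq_or_lt with h0 | h0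
        · simp only [hc, ← h0, div_zero]
          exact div_nonneg (M_nonneg hG _) (hU0 _)
        · have h1 : 0 < U (S tl) (ψ 0) r' := lt_of_lt_of_le h0 (U_mono hG hφ h)
          simp only [hc]
          rw [div_le_div_iff₀ h0 h1]
          exact mean_mono hG hφ h
      have ρmono : Monotone ρ := by
        intro r r' h
        rcases (hU0 r).eq_or_lt with h0 | h0
        · simp only [hρ, ← h0, div_zero]
          exact div_nonneg (Q_nonneg _) (hU0 _)
        · have h1 : 0 < U (S tl) (ψ 0) r' := lt_of_lt_of_le h0 (U_mono hG hφ h)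
          simp only [hρ]
          rw [div_le_div_iff₀ h0 h1]
          exact ratio_mono hG hφ h
      have cU : ∀ r, c r * U (S tl) (ψ 0) r = M (S tl) (ψ 0) r := fun r => by
        rcases (hU0 r).eq_or_lt with h0 | h0
        · simp [hc, ← h0, M_eq_zero hG hφ h0.symm]
        · simp [hc, div_mul_cancel₀ _ h0.ne']
      have ρU : ∀ r, ρ r * U (S tl) (ψ 0) r = Q (S tl) (ψ 0) r := fun r => by
        rcases (hU0 r).eq_or_lt with h0 | h0
        · simp [hρ, ← h0, Q_eq_zero hG hφ h0.symm]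
        · simp [hρ, div_mul_cancel₀ _ h0.ne']
      have cnn : ∀ r, 0 ≤ c r := fun r => div_nonneg (M_nonneg hG _) (hU0 _)
      have ρnn : ∀ r, 0 ≤ ρ r := fun r => div_nonneg (Q_nonneg _) (hU0 _)
      -- pointwise
      have hpt : ∀ r, 2 * (c r * Q (S tl) (ψ 0) r) ≤ S ψ r ^ 2 := by
        intro r
        rw [hU r]
        rcases (hU0 r).eq_or_lt with h0 | h0
        · simp [hc, ← h0]
        · have h3 := cube_ge hG hφ r
          have : 2 * (c r * Q (S tl) (ψ 0) r) * U (S tl) (ψ 0) r ≤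
              U (S tl) (ψ 0) r ^ 2 * U (S tl) (ψ 0) r := by
            calc _ = 2 * (c r * U (S tl) (ψ 0) r) * Q (S tl) (ψ 0) r := by ring
              _ = 2 * M (S tl) (ψ 0) r * Q (S tl) (ψ 0) r := by rw [cU]
              _ ≤ U (S tl) (ψ 0) r ^ 3 := h3
              _ = _ := by ring
          exact le_of_mul_le_mul_right this h0
      have iM : Integrable (M (S tl) (ψ 0)) μ :=
        integrable_of_monotone hR (M_mono hG hφ) (M_nonneg hG)
      have iQ : Integrable (Q (S tl) (ψ 0)) μ :=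
        integrable_of_monotone hR (Q_mono hG hφ) Q_nonneg
      have iS : Integrable (S ψ) μ := integrable_of_monotone hR (S_mono hψ) (S_nonneg ψ)
      have iS2 : Integrable (fun r => S ψ r ^ 2) μ := integrable_of_monotone hR
        (fun r r' h => pow_le_pow_left₀ (S_nonneg ψ r) (S_mono hψ h) 2) fun r => sq_nonneg _
      have icQ : Integrable (fun r => c r * Q (S tl) (ψ 0) r) μ := integrable_of_monotone hR
        (fun r r' h => mul_le_mul (cmono h) (Q_mono hG hφ h) (Q_nonneg _) (cnn _))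
        fun r => mul_nonneg (cnn r) (Q_nonneg r)
      rcases hVn.eq_or_lt with h0 | h0
      · have hz : (S ψ) =ᵐ[μ] 0 := (integral_eq_zero_iff_of_nonneg (S_nonneg ψ) iS).1 h0.symm
        have : Q' = 0 := by
          refine integral_eq_zero_of_ae ?_
          filter_upwards [hz] with r hr
          simp only [Pi.zero_apply] at hr ⊢
          exact Q_eq_zero hG hφ (by rw [← hU r]; exact hr)
        rw [this, mul_zero, ← h0, mul_zero]
      set c0 := M0 / V with hc0
      set τ := sSup (insert 0 (ρ '' {r | r ≤ R ∧ c r < c0})) with hτ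
      have hbdd : BddAbove (insert 0 (ρ '' {r | r ≤ R ∧ c r < c0})) := by
        refine ⟨ρ R, ?_⟩
        rintro v (rfl | ⟨r, hr, rfl⟩)
        · exact ρnn R
        · exact ρmono hr.1
      have hτb : ∀ r ≤ R, 0 ≤ (c r - c0) * (ρ r - τ) := by
        intro r hr
        rcases lt_or_ge (c r) c0 with hlt | hge
        · exact mul_nonneg_of_nonpos_of_nonpos (by linarith)
            (sub_nonpos.2 (le_csSup hbdd (Or.inr ⟨r, ⟨hr, hlt⟩, rfl⟩)))
        · refine mul_nonneg (by linarith) (sub_nonneg.2 (csSup_le (insert_nonempty _ _) ?_))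
          rintro v (rfl | ⟨s, hs, rfl⟩)
          · exact ρnn r
          · refine ρmono ?_
            by_contra hc'
            exact absurd (hge.trans (cmono (not_le.1 hc').le)) (not_le.2 hs.2)
      have hcheb : ∫ r, (c0 * Q (S tl) (ψ 0) r + τ * (M (S tl) (ψ 0) r - c0 * S ψ r)) ∂μ ≤
          ∫ r, c r * Q (S tl) (ψ 0) r ∂μ := by
        refine integral_mono_ae ((iQ.const_mul c0).add ((iM.sub (iS.const_mul c0)).const_mul τ))
          icQ ?_
        filter_upwards [hR] with r hr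
        have h5 := mul_nonneg (hτb r hr) (hU0 r)
        rw [← ρU r, ← cU r, hU r]
        nlinarith [h5]
      have hMeq : ∫ r, M (S tl) (ψ 0) r ∂μ = M0 :=
        integral_congr_ae (Filter.Eventually.of_forall fun r => (eM r).symm)
      have hint2 : Integrable (fun r => M (S tl) (ψ 0) r - c0 * S ψ r) μ :=
        iM.sub (iS.const_mul c0)
      rw [integral_add (iQ.const_mul c0) (hint2.const_mul τ), integral_const_mul,
        integral_const_mul, integral_sub iM (iS.const_mul c0), integral_const_mul, hMeq, ← hV,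
        ← hQ', hc0, div_mul_cancel₀ _ h0.ne', sub_self, mul_zero, add_zero] at hcheb
      have h6 : ∫ r, 2 * (c r * Q (S tl) (ψ 0) r) ∂μ ≤ ∫ r, S ψ r ^ 2 ∂μ :=
        integral_mono (icQ.const_mul 2) iS2 hpt
      rw [integral_const_mul] at h6
      have h7 : 2 * (M0 / V * Q') * V ≤ (∫ r, S ψ r ^ 2 ∂μ) * V :=
        mul_le_mul_of_nonneg_right (le_trans (by linarith) h6) hVn
      calc 2 * M0 * Q' = 2 * (M0 / V * Q') * V := by field_simp
        _ ≤ _ := h7
    rw [Fin.prod_univ_succ]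
    calc 2 ^ (n + 1) * (M0 * ∏ j : Fin n, ∫ r, N ψ j.succ r ∂μ) * V
        = 2 * M0 * (2 ^ n * (∏ j : Fin n, ∫ r, N ψ j.succ r ∂μ) * V) := by ring
      _ ≤ 2 * M0 * (Q' * V ^ n) := mul_le_mul_of_nonneg_left hIH (by linarith)
      _ = 2 * M0 * Q' * V ^ n := by ring
      _ ≤ (∫ r, S ψ r ^ 2 ∂μ) * V * V ^ n :=
          mul_le_mul_of_nonneg_right hstep (pow_nonneg hVn n)
      _ = _ := by ring

/-- `2^n ∏ ∫ y_i ≤ vol^(n+1)`. -/
theorem product_le {ψ : Fin n → ℝ → ℝ} (hψ : ∀ i, Young (ψ i)) :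
    2 ^ n * ∏ i, N ψ i 1 ≤ S ψ 1 ^ (n + 1) := by
  have h := product_weight hψ (Measure.dirac 1) 1
    ((ae_dirac_iff (p := fun r : ℝ => r ≤ 1) measurableSet_Iic).2 le_rfl)
  simp only [integral_dirac] at h
  have hp := S_pos hψ (r := 1) one_pos
  refine le_of_mul_le_mul_right (h.trans (le_of_eq ?_)) hp
  ring

end Vale.Agent.P254.Orlicz
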