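import Vale.Agent.P254.Orlicz.OneDim
import Vale.Agent.P262.Prekopa

/-!
The sublevel volume of an `n`-term sum is the `n`-th power of a concave function.
-/

open MeasureTheory Set
open scoped ENNReal

namespace Vale.Agent.P254.Orlicz

variable {n : ℕ}

/-- `S ψ` is, on `[0, ∞)`, the `n`-th power of a nonnegative monotone concave function. -/
def HasRoot (ψ : Fin n → ℝ → ℝ) : Prop :=
  ∃ H : ℝ → ℝ, Monotone H ∧ (∀ r, 0 ≤ H r) ∧ ConcaveOn ℝ (Ici 0) H ∧
    ∀ r, 0 ≤ r → S ψ r = H r ^ n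

lemma hasRoot_zero (ψ : Fin 0 → ℝ → ℝ) : HasRoot ψ :=
  ⟨fun _ => 1, monotone_const, fun _ => zero_le_one, concaveOn_const 1 (convex_Ici 0),
    fun r hr => by simp [S_zero_dim ψ hr]⟩

/-- The Hölder step. -/
lemma holder_step (n : ℕ) {t h0 h1 u v : ℝ} (ht0 : 0 ≤ t) (ht1 : t ≤ 1) (hh0 : 0 < h0)
    (hh1 : 0 < h1) (hu : 0 ≤ u) (hv : 0 ≤ v) :
    ((1 - t) * u + t * v) ^ (n + 1) ≤ ((1 - t) * h0 + t * h1) ^ n *
      ((1 - t) * (u ^ (n + 1) / h0 ^ n) + t * (v ^ (n + 1) / h1 ^ n)) := by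
  set hb := (1 - t) * h0 + t * h1 with hhb
  have hb0 : 0 < hb := by
    rcases ht0.eq_or_lt with h | h
    · rw [hhb, ← h]; simpa using hh0
    · have := mul_pos h hh1
      nlinarith [mul_nonneg (sub_nonneg.2 ht1) hh0.le]
  have key := (convexOn_pow (n + 1)).2 (show u / h0 ∈ Ici (0:ℝ) from div_nonneg hu hh0.le)
    (show v / h1 ∈ Ici (0:ℝ) from div_nonneg hv hh1.le)
    (show 0 ≤ (1 - t) * h0 / hb by have := sub_nonneg.2 ht1; positivity)
    (show 0 ≤ t * h1 / hb by positivity) (by rw [← add_div, ← hhb, div_self hb0.ne'])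
  simp only [smul_eq_mul] at key
  have e1 : (1 - t) * h0 / hb * (u / h0) + t * h1 / hb * (v / h1) =
      ((1 - t) * u + t * v) / hb := by field_simp
  rw [e1, div_pow, div_le_iff₀ (by positivity)] at key
  refine key.trans (le_of_eq ?_)
  simp only [div_pow, pow_succ]
  field_simp

/-- One induction step of the concave root property: the inequality. -/
theorem root_step {H φ : ℝ → ℝ} (hmono : Monotone H) (hnn : ∀ r, 0 ≤ H r)
    (hconc : ConcaveOn ℝ (Ici 0) H) (hφ : Young φ) {n : ℕ} {S' : ℝ → ℝ}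
    (hS' : ∀ r, 0 ≤ r → S' r = ∫ x in {x | 0 ≤ x ∧ φ x ≤ r}, H (r - φ x) ^ n)
    {r0 r1 t u v : ℝ} (h0 : 0 ≤ r0) (h1 : 0 ≤ r1) (ht0 : 0 < t) (ht1 : t < 1)
    (hu0 : 0 ≤ u) (hv0 : 0 ≤ v) (hu : u ^ (n + 1) = S' r0) (hv : v ^ (n + 1) = S' r1) :
    ((1 - t) * u + t * v) ^ (n + 1) ≤ S' ((1 - t) * r0 + t * r1) := by
  set rm := (1 - t) * r0 + t * r1 with hrm
  have hrm0 : 0 ≤ rm := by have := sub_pos.2 ht1; positivity
  set D : ℝ → Set ℝ := fun r => {x | 0 ≤ x ∧ φ x ≤ r} with hD
  have hDm : ∀ r, MeasurableSet (D r) := fun r =>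
    (measurableSet_le measurable_const measurable_id).inter
      (measurableSet_le hφ.cont.measurable measurable_const)
  have hDb : ∀ r, ∃ a, D r ⊆ Icc 0 a := fun r => by
    obtain ⟨a, -, ha⟩ := hφ.unb r
    refine ⟨a, fun x hx => ⟨hx.1, ?_⟩⟩
    by_contra hc
    have := hφ.mono (not_le.1 hc).le
    linarith [hx.2]
  have hHm : ∀ r, Measurable fun x => H (r - φ x) := fun r =>
    hmono.measurable.comp (measurable_const.sub hφ.cont.measurable)
  -- superlevel sets
  set E : ℝ → ℝ → Set ℝ := fun r s => {x | x ∈ D r ∧ s ≤ H (r - φ x)} with hE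
  have hEm : ∀ r s, MeasurableSet (E r s) := fun r s =>
    (hDm r).inter (measurableSet_le measurable_const (hHm r))
  have hzero : ∀ r, 0 ≤ r → (0:ℝ) ∈ D r := fun r hr => ⟨le_rfl, by rwa [hφ.zero]⟩
  -- concavity on the slices
  have hkey : ∀ x y, x ∈ D r0 → y ∈ D r1 → (1 - t) * x + t * y ∈ D rm ∧
      (1 - t) * H (r0 - φ x) + t * H (r1 - φ y) ≤ H (rm - φ ((1 - t) * x + t * y)) := by
    intro x y hx hy
    have hc : φ ((1 - t) * x + t * y) ≤ (1 - t) * φ x + t * φ y := by
      simpa using hφ.convex.2 (mem_univ x) (mem_univ y) (show 0 ≤ 1 - t by linarith) ht0.le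
        (by ring)
    have hm1 : (1 - t) * (r0 - φ x) + t * (r1 - φ y) ≤ rm - φ ((1 - t) * x + t * y) := by
      rw [hrm]; linarith
    have hcc := hconc.2 (show r0 - φ x ∈ Ici (0:ℝ) from sub_nonneg.2 hx.2)
      (show r1 - φ y ∈ Ici (0:ℝ) from sub_nonneg.2 hy.2) (show 0 ≤ 1 - t by linarith) ht0.le
      (by ring)
    simp only [smul_eq_mul] at hcc
    refine ⟨⟨by have := hx.1; have := hy.1; have := sub_pos.2 ht1; positivity, ?_⟩,
      hcc.trans (hmono hm1)⟩
    have h3 : 0 ≤ (1 - t) * (r0 - φ x) + t * (r1 - φ y) := by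
      have := sub_pos.2 ht1
      have := sub_nonneg.2 hx.2
      have := sub_nonneg.2 hy.2
      positivity
    linarith
  -- integrals
  have hint : ∀ r (p : ℝ → ℝ), Measurable p → (∃ C, ∀ x ∈ D r, |p x| ≤ C) →
      IntegrableOn p (D r) := by
    intro r p hp ⟨C, hC⟩
    obtain ⟨a, ha⟩ := hDb r
    refine IntegrableOn.of_bound (lt_of_le_of_lt (measure_mono ha) measure_Icc_lt_top)
      hp.aestronglyMeasurable C ?_
    exact (ae_restrict_iff' (hDm r)).2 (Filter.Eventually.of_forall fun x hx => by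
      simpa [Real.norm_eq_abs] using hC x hx)
  have hle0 : ∀ r x, x ∈ D r → H (r - φ x) ≤ H r := fun r x hx =>
    hmono (by linarith [hφ.nonneg hx.1])
  have hHi : ∀ r, IntegrableOn (fun x => H (r - φ x) ^ n) (D r) := fun r =>
    hint r _ ((hHm r).pow_const n) ⟨H r ^ n, fun x hx => by
      rw [abs_of_nonneg (pow_nonneg (hnn _) _)]
      exact pow_le_pow_left₀ (hnn _) (hle0 r x hx) n⟩
  rcases Nat.eq_zero_or_pos n with hn | hn
  · subst hn
    simp only [zero_add, pow_one] at hv hu ⊢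
    rw [hS' _ h0] at hu
    rw [hS' _ h1] at hv
    rw [hS' _ hrm0]
    simp only [pow_zero, setIntegral_const, smul_eq_mul, mul_one] at hu hv ⊢
    rw [hu, hv]
    obtain ⟨a, ha⟩ := hDb r0
    obtain ⟨b, hb⟩ := hDb r1
    obtain ⟨c, hc⟩ := hDb rm
    have hb' := Vale.Agent.P262.volume_smul_add_ge (C := D rm) (hDm r0) (hDm r1)
      ⟨0, hzero r0 h0⟩ ⟨0, hzero r1 h1⟩ (sub_pos.2 ht1) ht0 fun x hx y hy => (hkey x y hx hy).1
    have hfin : volume (D rm) ≠ ⊤ := (lt_of_le_of_lt (measure_mono hc) measure_Icc_lt_top).ne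
    have := ENNReal.toReal_mono hfin hb'
    rw [ENNReal.toReal_add, ENNReal.toReal_mul, ENNReal.toReal_mul,
      ENNReal.toReal_ofReal (sub_pos.2 ht1).le, ENNReal.toReal_ofReal ht0.le] at this
    · exact this
    · exact ENNReal.mul_ne_top ENNReal.ofReal_ne_top
        (lt_of_le_of_lt (measure_mono ha) measure_Icc_lt_top).ne
    · exact ENNReal.mul_ne_top ENNReal.ofReal_ne_top
        (lt_of_le_of_lt (measure_mono hb) measure_Icc_lt_top).ne
  -- level sets, normalised by the value at the origin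
  set L : (ℝ → Set ℝ) → ℝ≥0∞ := fun A =>
    ENNReal.ofReal n * ∫⁻ s in Ioi (0:ℝ), volume (A s) * ENNReal.ofReal (s ^ ((n:ℝ) - 1)) with hL
  have hside : ∀ r, 0 ≤ r → ∀ w : ℝ, 0 ≤ w → w ^ (n + 1) = S' r →
      ∃ A : ℝ → Set ℝ, ∃ K : ℝ, 0 ≤ K ∧ (∀ s, MeasurableSet (A s)) ∧
        (∀ s, 1 < s → A s = ∅) ∧ (∀ s, 0 < s → s ≤ 1 → (0:ℝ) ∈ A s) ∧
        (∀ s x, 0 < s → x ∈ A s → x ∈ E r (s * H r)) ∧
        L A = ENNReal.ofReal K ∧ w ^ (n + 1) = H r ^ n * K ∧ (H r = 0 → w = 0) := by
    intro r hr w hw0 hw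
    rcases (hnn r).eq_or_lt with hH | hH
    · have hS0 : S' r = 0 := by
        rw [hS' r hr]
        refine setIntegral_eq_zero_of_forall_eq_zero fun x hx => ?_
        rw [le_antisymm ((hle0 r x hx).trans hH.symm.le) (hnn _), zero_pow hn.ne']
      refine ⟨fun s => if s ≤ 1 then {0} else ∅, 0, le_rfl, fun s => ?_, fun s hs => ?_,
        fun s _ hs => ?_, fun s x _ hx => ?_, ?_, ?_, fun _ => ?_⟩
      · dsimp only; split_ifs <;> simp
      · simp [not_le.2 hs]
      · simp [hs]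
      · dsimp only at hx
        split_ifs at hx with hs
        · simp only [mem_singleton_iff] at hx
          subst hx
          exact ⟨hzero r hr, by rw [← hH, mul_zero]; exact hnn _⟩
        · simp at hx
      · simp only [hL, ENNReal.ofReal_zero]
        refine mul_eq_zero_of_right _ ?_
        simp [apply_ite volume]
      · rw [hw, hS0, mul_zero]
      · exact pow_eq_zero_iff (Nat.succ_ne_zero n) |>.1 (hw.trans hS0)
    · refine ⟨fun s => E r (s * H r), S' r / H r ^ n, ?_, fun s => hEm r _, fun s hs => ?_,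
        fun s hs0 hs => ?_, fun s x _ hx => hx, ?_, ?_, fun h => absurd h hH.ne'⟩
      · rw [← hw]; positivity
      · refine eq_empty_iff_forall_notMem.2 fun x hx => ?_
        have h2 := hle0 r x hx.1
        have h3 : s * H r ≤ H r := hx.2.trans h2
        nlinarith
      · exact ⟨hzero r hr, by rw [hφ.zero, sub_zero]; exact mul_le_of_le_one_left hH.le hs⟩
      · have hlc := lintegral_rpow_eq_lintegral_meas_le_mul (volume.restrict (D r))
          (f := fun x => H (r - φ x) / H r)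
          (Filter.Eventually.of_forall fun x => div_nonneg (hnn _) hH.le)
          ((hHm r).div_const _).aemeasurable (show (0:ℝ) < n by exact_mod_cast hn)
        have hlhs : ∫⁻ x in D r, ENNReal.ofReal ((H (r - φ x) / H r) ^ (n:ℝ)) =
            ENNReal.ofReal (S' r / H r ^ n) := by
          simp only [Real.rpow_natCast, div_pow]
          rw [← ofReal_integral_eq_lintegral_ofReal ((hHi r).div_const _)
            (Filter.Eventually.of_forall fun x => div_nonneg (pow_nonneg (hnn _) _)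
              (pow_nonneg hH.le _)), integral_div, hS' r hr]
        simp only [hL]
        rw [← hlhs, hlc]
        congr 1
        refine setLIntegral_congr_fun measurableSet_Ioi fun s hs => ?_
        congr 1
        rw [Measure.restrict_apply' (hDm r)]
        congr 1
        ext x
        simp [hE, and_comm, le_div_iff₀ hH]
      · rw [hw, mul_div_cancel₀ _ (pow_ne_zero n hH.ne')]
  obtain ⟨A, K, hK, hAm, hAe, hA0, hAE, hLA, huK, huz⟩ := hside r0 h0 u hu0 hu
  obtain ⟨B, K', hK', hBm, hBe, hB0, hBE, hLB, hvK, hvz⟩ := hside r1 h1 v hv0 hv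
  have hSnn : 0 ≤ S' rm := by
    rw [hS' _ hrm0]; exact setIntegral_nonneg (hDm rm) fun x _ => pow_nonneg (hnn _) _
  set hb := (1 - t) * H r0 + t * H r1 with hhb
  rcases (show 0 ≤ hb from add_nonneg (mul_nonneg (sub_pos.2 ht1).le (hnn _))
    (mul_nonneg ht0.le (hnn _))).eq_or_lt with hbz | hbp
  · have e0 : H r0 = 0 := by nlinarith [hnn r0, hnn r1, sub_pos.2 ht1]
    have e1 : H r1 = 0 := by nlinarith [hnn r0, hnn r1, sub_pos.2 ht1]
    simpa [huz e0, hvz e1] using hSnn
  -- the level set inequality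
  have hmain : ENNReal.ofReal ((1 - t) * K + t * K') ≤ ENNReal.ofReal (S' rm / hb ^ n) := by
    have hlc := lintegral_rpow_eq_lintegral_meas_le_mul (volume.restrict (D rm))
      (f := fun x => H (rm - φ x) / hb)
      (Filter.Eventually.of_forall fun x => div_nonneg (hnn _) hbp.le)
      ((hHm rm).div_const _).aemeasurable (show (0:ℝ) < n by exact_mod_cast hn)
    have hlhs : ∫⁻ x in D rm, ENNReal.ofReal ((H (rm - φ x) / hb) ^ (n:ℝ)) =
        ENNReal.ofReal (S' rm / hb ^ n) := by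
      simp only [Real.rpow_natCast, div_pow]
      rw [← ofReal_integral_eq_lintegral_ofReal ((hHi rm).div_const _)
        (Filter.Eventually.of_forall fun x => div_nonneg (pow_nonneg (hnn _) _)
          (pow_nonneg hbp.le _)), integral_div, hS' rm hrm0]
    rw [← hlhs, hlc]
    set w : ℝ → ℝ≥0∞ := fun s => ENNReal.ofReal (s ^ ((n:ℝ) - 1)) with hw
    have hAB : ∀ s ∈ Ioi (0:ℝ), ENNReal.ofReal (1 - t) * volume (A s) +
        ENNReal.ofReal t * volume (B s) ≤
          (volume.restrict (D rm)) {x | s ≤ H (rm - φ x) / hb} := by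
      intro s hs
      rcases lt_or_ge 1 s with hs1 | hs1
      · simp [hAe s hs1, hBe s hs1]
      · refine le_trans (Vale.Agent.P262.volume_smul_add_ge (C := E rm (s * hb)) (hAm s) (hBm s)
          ⟨0, hA0 s hs hs1⟩ ⟨0, hB0 s hs hs1⟩ (sub_pos.2 ht1) ht0 ?_) ?_
        · intro x hx y hy
          have hx' := hAE s x hs hx
          have hy' := hBE s y hs hy
          obtain ⟨k1, k2⟩ := hkey x y hx'.1 hy'.1
          refine ⟨k1, le_trans ?_ k2⟩
          calc s * hb = (1 - t) * (s * H r0) + t * (s * H r1) := by rw [hhb]; ring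
            _ ≤ _ := add_le_add (mul_le_mul_of_nonneg_left hx'.2 (sub_pos.2 ht1).le)
                (mul_le_mul_of_nonneg_left hy'.2 ht0.le)
        · rw [Measure.restrict_apply' (hDm rm)]
          refine measure_mono fun x hx => ⟨?_, hx.1⟩
          show s ≤ H (rm - φ x) / hb
          rw [le_div_iff₀ hbp]
          exact hx.2
    calc ENNReal.ofReal ((1 - t) * K + t * K')
        = ENNReal.ofReal (1 - t) * L A + ENNReal.ofReal t * L B := by
          rw [hLA, hLB, ← ENNReal.ofReal_mul (sub_pos.2 ht1).le, ← ENNReal.ofReal_mul ht0.le,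
            ← ENNReal.ofReal_add (mul_nonneg (sub_pos.2 ht1).le hK) (mul_nonneg ht0.le hK')]
      _ = ENNReal.ofReal n * (ENNReal.ofReal (1 - t) * (∫⁻ s in Ioi (0:ℝ), volume (A s) * w s) +
            ENNReal.ofReal t * ∫⁻ s in Ioi (0:ℝ), volume (B s) * w s) := by
          rw [hL]; ring
      _ ≤ _ := by
          refine mul_le_mul_right ?_ _
          rw [← lintegral_const_mul' _ _ ENNReal.ofReal_ne_top,
            ← lintegral_const_mul' _ _ ENNReal.ofReal_ne_top]
          refine le_trans (le_lintegral_add _ _) (setLIntegral_mono' measurableSet_Ioi fun s hs => ?_)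
          rw [← mul_assoc, ← mul_assoc, ← add_mul]
          exact mul_le_mul_left (hAB s hs) _
  have hreal : (1 - t) * K + t * K' ≤ S' rm / hb ^ n :=
    (ENNReal.ofReal_le_ofReal_iff (div_nonneg hSnn (pow_nonneg hbp.le _))).1 hmain
  rw [le_div_iff₀ (pow_pos hbp n)] at hreal
  refine le_trans ?_ hreal
  rw [mul_comm _ (hb ^ n)]
  rcases (hnn r0).eq_or_lt with hH0 | hH0 <;> rcases (hnn r1).eq_or_lt with hH1 | hH1
  · exfalso; rw [hhb, ← hH0, ← hH1] at hbp; simp at hbp
  · rw [huz hH0.symm]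
    simp only [hhb, ← hH0, mul_zero, zero_add]
    rw [mul_pow, hvK, mul_pow, pow_succ]
    nlinarith [mul_nonneg (mul_nonneg (pow_nonneg ht0.le n) (pow_nonneg hH1.le n))
      (mul_nonneg (sub_pos.2 ht1).le hK)]
  · rw [hvz hH1.symm]
    simp only [hhb, ← hH1, mul_zero, add_zero]
    rw [mul_pow, huK, mul_pow, pow_succ]
    nlinarith [mul_nonneg (mul_nonneg (pow_nonneg (sub_pos.2 ht1).le n) (pow_nonneg hH0.le n))
      (mul_nonneg ht0.le hK')]
  · have e0 : K = u ^ (n + 1) / H r0 ^ n := by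
      rw [eq_div_iff (pow_ne_zero n hH0.ne'), huK, mul_comm]
    have e1 : K' = v ^ (n + 1) / H r1 ^ n := by
      rw [eq_div_iff (pow_ne_zero n hH1.ne'), hvK, mul_comm]
    rw [e0, e1]
    exact holder_step n ht0.le ht1.le hH0 hH1 hu0 hv0

/-- The inner pair has the larger product, for a power of a nonnegative concave function. -/
lemma prod_concave {H : ℝ → ℝ} (hnn : ∀ r, 0 ≤ H r) (hconc : ConcaveOn ℝ (Ici 0) H)
    {a b c d : ℝ} (ha : 0 ≤ a) (hab : a ≤ b) (hac : a ≤ c) (hbd : b ≤ d) (_hcd : c ≤ d)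
    (hsum : b + c = a + d) : H a * H d ≤ H b * H c := by
  rcases eq_or_lt_of_le (hab.trans hbd) with had | had
  · have : b = a := by linarith
    have : c = d := by linarith
    subst_vars
    rfl
  set l := (d - b) / (d - a) with hl
  have hl0 : 0 ≤ l := div_nonneg (by linarith) (by linarith)
  have hl1 : l ≤ 1 := by rw [hl, div_le_one (by linarith)]; linarith
  have k1 := hconc.2 (show a ∈ Ici (0:ℝ) from ha) (show d ∈ Ici (0:ℝ) from ha.trans had.le)
    hl0 (sub_nonneg.2 hl1) (by ring)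
  have k2 := hconc.2 (show a ∈ Ici (0:ℝ) from ha) (show d ∈ Ici (0:ℝ) from ha.trans had.le)
    (sub_nonneg.2 hl1) hl0 (by ring)
  simp only [smul_eq_mul] at k1 k2
  have eb : l * a + (1 - l) * d = b := by
    rw [hl]
    have : d - a ≠ 0 := by linarith
    field_simp
    ring
  have ec : (1 - l) * a + l * d = c := by
    have : (1 - l) * a + l * d = a + d - (l * a + (1 - l) * d) := by ring
    rw [this, eb]; linarith
  rw [eb] at k1
  rw [ec] at k2
  have hA := hnn a
  have hD := hnn d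
  have : (l * H a + (1 - l) * H d) * ((1 - l) * H a + l * H d) ≤ H b * H c :=
    mul_le_mul k1 k2 (by have := sub_nonneg.2 hl1; positivity) (hnn _)
  nlinarith [mul_nonneg (mul_nonneg hl0 (sub_nonneg.2 hl1)) (sq_nonneg (H a - H d))]

lemma HasRoot.good {ψ : Fin n → ℝ → ℝ} (h : HasRoot ψ) (hψ : ∀ i, Young (ψ i)) : Good (S ψ) := by
  obtain ⟨H, -, hnn, hconc, hS⟩ := h
  refine ⟨S_nonneg ψ, S_mono hψ, fun r hr => S_neg hψ hr, fun a b c d hab hac hbd hcd hsum => ?_⟩
  rcases lt_or_ge a 0 with ha | ha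
  · rw [S_neg hψ ha, zero_mul]
    exact mul_nonneg (S_nonneg _ _) (S_nonneg _ _)
  · rw [hS a ha, hS d (by linarith), hS b (by linarith), hS c (by linarith), ← mul_pow, ← mul_pow]
    exact pow_le_pow_left₀ (mul_nonneg (hnn _) (hnn _))
      (prod_concave hnn hconc ha hab hac hbd hcd hsum) n

theorem hasRoot {n : ℕ} : ∀ {ψ : Fin n → ℝ → ℝ}, (∀ i, Young (ψ i)) → HasRoot ψ := by
  induction n with
  | zero => intro ψ _; exact hasRoot_zero ψ
  | succ n ih =>
    intro ψ hψ
    set tl : Fin n → ℝ → ℝ := fun j => ψ ((0 : Fin (n+1)).succAbove j) with htl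
    obtain ⟨H, hmono, hnn, hconc, hH⟩ := ih (ψ := tl) fun j => hψ _
    have hrep : ∀ r, 0 ≤ r → S ψ r = ∫ x in {x | 0 ≤ x ∧ ψ 0 x ≤ r}, H (r - ψ 0 x) ^ n := by
      intro r hr
      rw [S_succ hψ 0 r, ← integral_Ici_eq_integral_Ioi, ← integral_indicator measurableSet_Ici]
      rw [← integral_indicator (s := {x | 0 ≤ x ∧ ψ 0 x ≤ r})]
      · refine integral_congr_ae (Filter.Eventually.of_forall fun x => ?_)
        by_cases hx : 0 ≤ x
        · by_cases hx2 : ψ 0 x ≤ r
          · simp [hx, hx2, ← hH _ (sub_nonneg.2 hx2), htl]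
          · have := S_neg (ψ := tl) (fun j => hψ _) (show r - ψ 0 x < 0 by linarith)
            simp [hx, hx2, htl] at this ⊢
            exact this
        · simp [hx]
      · exact (measurableSet_le measurable_const measurable_id).inter
          (measurableSet_le (hψ 0).cont.measurable measurable_const)
    set G : ℝ → ℝ := fun r => S ψ r ^ ((n + 1 : ℕ) : ℝ)⁻¹ with hG
    have hGp : ∀ r, G r ^ (n + 1) = S ψ r := fun r =>
      Real.rpow_inv_natCast_pow (S_nonneg ψ r) (Nat.succ_ne_zero n)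
    refine ⟨G, fun a b hab => Real.rpow_le_rpow (S_nonneg _ _) (S_mono hψ hab) (by positivity),
      fun r => Real.rpow_nonneg (S_nonneg _ _) _, ⟨convex_Ici 0, ?_⟩, fun r _ => (hGp r).symm⟩
    intro x hx y hy a b ha hb hab
    simp only [smul_eq_mul]
    rcases ha.eq_or_lt with ha0 | ha0
    · have : b = 1 := by linarith
      subst this; simp [← ha0]
    rcases hb.eq_or_lt with hb0 | hb0
    · have : a = 1 := by linarith
      subst this; simp [← hb0]
    have hstep := root_step hmono hnn hconc (hψ 0) hrep (t := b) (mem_Ici.1 hx) (mem_Ici.1 hy) hb0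
      (by linarith) (Real.rpow_nonneg (S_nonneg _ _) _) (Real.rpow_nonneg (S_nonneg _ _) _)
      (hGp x) (hGp y)
    rw [show 1 - b = a by linarith] at hstep
    replace hstep := hstep.trans_eq (hGp (a * x + b * y)).symm
    exact le_of_pow_le_pow_left₀ (Nat.succ_ne_zero n) (Real.rpow_nonneg (S_nonneg _ _) _) hstep

lemma good {ψ : Fin n → ℝ → ℝ} (hψ : ∀ i, Young (ψ i)) : Good (S ψ) := (hasRoot hψ).good hψ

end Vale.Agent.P254.Orlicz
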